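import Crest.Agent.R123.Map

/-!
# Row 123 (S0163): elementary facts on the pieces of `F`
-/

noncomputable section

open scoped Real ComplexConjugate

namespace Crest.Agent.R123

/-! ### The step function -/

lemma step_nonneg (β s : ℝ) : 0 ≤ step β s := by
  have h1 : psi β ≤ 1 := bmp_le_one
  have h2 : 0 ≤ psi β := bmp_nonneg
  have h3 : 0 ≤ drv s := bmp_nonneg
  have h4 : drv s ≤ 1 := bmp_le_one
  unfold step; nlinarith

lemma step_le_one (β s : ℝ) : step β s ≤ 1 := by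
  have h2 : 0 ≤ psi β := bmp_nonneg
  have h4 : drv s ≤ 1 := bmp_le_one
  unfold step; nlinarith

lemma drv_le_step (β s : ℝ) : drv s ≤ step β s := by
  have h1 : psi β ≤ 1 := bmp_le_one
  have h4 : drv s ≤ 1 := bmp_le_one
  unfold step; nlinarith

lemma step_eq_one_of_le {β : ℝ} (h : β ≤ -1) (s : ℝ) : step β s = 1 := by
  have : psi β = 0 := bmp_eq_zero_of_le (by linarith)
  simp [step, this]

lemma step_eq_one_of_ge {β : ℝ} (h : 1 ≤ β) (s : ℝ) : step β s = 1 := by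
  have : psi β = 0 := bmp_eq_zero_of_ge (by linarith)
  simp [step, this]

lemma step_eq_zero {β s : ℝ} (h1 : -1 / 2 ≤ β) (h2 : β ≤ 1 / 2) (hs : 1 / 2 ≤ |s|) :
    step β s = 0 := by
  have h3 : psi β = 1 := bmp_eq_one (by linarith) (by linarith)
  have h4 : drv s = 0 := by
    rcases le_abs.1 hs with h | h
    · exact bmp_eq_zero_of_ge (by linarith)
    · exact bmp_eq_zero_of_le (by linarith)
  simp [step, h3, h4]

lemma abs_qq (s : ℝ) : |qq s| = qq |s| := by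
  unfold qq
  rw [abs_div, abs_mul, abs_two, sq_abs, abs_of_pos (by positivity : 0 < 1 + s ^ 2)]

lemma le_qq {s : ℝ} (h0 : 0 ≤ s) (h1 : s ≤ 1) : s ≤ qq s := by
  unfold qq
  rw [le_div_iff₀ (by positivity)]
  nlinarith [mul_nonneg h0 (mul_nonneg h0 (sub_nonneg.2 h1)), mul_nonneg h0 (sub_nonneg.2 h1)]

lemma S2.abs_s_le (x : S2) : |x.s| ≤ 1 := by
  have h := x.norm_sq_add
  rw [abs_le]
  constructor <;> nlinarith [sq_nonneg ‖x.z‖]

/-! ### Read-out windows -/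

lemma chi_nonneg (i : Bool) (β : ℝ) : 0 ≤ chi i β := bmp_nonneg

lemma chi_eq_zero_of_le (i : Bool) {β : ℝ} (h : β ≤ ctr i - 1 / 2) : chi i β = 0 :=
  bmp_eq_zero_of_le h

lemma chi_eq_zero_of_ge (i : Bool) {β : ℝ} (h : ctr i + 1 / 2 ≤ β) : chi i β = 0 :=
  bmp_eq_zero_of_ge h

lemma ctr_ge (i : Bool) : 5 / 2 ≤ ctr i := by cases i <;> simp [ctr]; norm_num
lemma ctr_le (i : Bool) : ctr i ≤ 3 := by cases i <;> simp [ctr]; norm_num

lemma outW_eq_zero {β : ℝ} (h : β ≤ 2) (A B : ℂ) : outW β A B = 0 := by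
  have h1 : ∀ i, chi i β = 0 := fun i => chi_eq_zero_of_le i (by linarith [ctr_ge i])
  simp [outW, h1]

lemma F_s_of_le {m : MM} (h : m.β ≤ 2) : (F m).x.s = qq m.x.s := by
  rw [F_x, MM.W, outW_eq_zero h, mob_zero]; rfl

/-- The base coordinate passes the cut at this step. -/
def Wrap (m : MM) : Prop := 8 < m.β + m.st

lemma F_β_of_not_wrap {m : MM} (h : ¬ Wrap m) : (F m).β = m.β + m.st :=
  ang_mul_exp_of_le _ (step_nonneg _ _) (not_lt.1 h)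

lemma F_β_of_wrap {m : MM} (h : Wrap m) : (F m).β ≤ -7 := by
  have h1 : (F m).β = m.β + m.st - 16 := ang_mul_exp_of_gt _ (step_le_one _ _) h
  have h2 : m.β ≤ 8 := ang_le _
  have h3 : m.st ≤ 1 := step_le_one _ _
  linarith

/-- States which never pass the stall window again. -/
def Stuck (m : MM) : Prop := m.β ≤ 1 / 2 ∧ 1 / 2 ≤ |m.x.s|

lemma Stuck.not_wrap {m : MM} (h : Stuck m) : ¬ Wrap m := by
  have h3 : m.st ≤ 1 := step_le_one _ _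
  unfold Wrap
  linarith [h.1]

lemma Stuck.next {m : MM} (h : Stuck m) : Stuck (F m) := by
  constructor
  · rw [F_β_of_not_wrap h.not_wrap]
    by_cases h1 : m.β < -1 / 2
    · have h3 : m.st ≤ 1 := step_le_one _ _
      linarith
    · have : m.st = 0 := step_eq_zero (not_lt.1 h1) h.1 h.2
      linarith [h.1]
  · rw [F_s_of_le (by linarith [h.1]), abs_qq]
    exact h.2.trans (le_qq (abs_nonneg _) m.x.abs_s_le)

lemma Stuck.iterate {m : MM} (h : Stuck m) (n : ℕ) : Stuck (F^[n] m) := by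
  induction n with
  | zero => exact h
  | succ n ih => rw [Function.iterate_succ_apply']; exact ih.next

/-! ### Rays -/

/-- `v` is a multiple of `ω` by a real number that is at least `a` and at least `0`. -/
def Ray (ω : ℂ) (a : ℝ) (v : ℂ) : Prop := ∃ r : ℝ, 0 ≤ r ∧ a ≤ r ∧ v = r * ω

lemma Ray.zero (ω : ℂ) : Ray ω 0 0 := ⟨0, le_rfl, le_rfl, by simp⟩

lemma Ray.mono {ω v : ℂ} {a b : ℝ} (h : Ray ω a v) (hb : b ≤ a) : Ray ω b v := by
  obtain ⟨r, h0, h1, h2⟩ := h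
  exact ⟨r, h0, hb.trans h1, h2⟩

lemma Ray.toZero {ω v : ℂ} {a : ℝ} (h : Ray ω a v) : Ray ω 0 v := by
  obtain ⟨r, h0, h1, h2⟩ := h
  exact ⟨r, h0, h0, h2⟩

lemma Ray.add {ω v w : ℂ} {a b : ℝ} (h : Ray ω a v) (h' : Ray ω b w) :
    Ray ω (a + b) (v + w) := by
  obtain ⟨r, h0, h1, h2⟩ := h
  obtain ⟨r', h0', h1', h2'⟩ := h'
  exact ⟨r + r', by linarith, by linarith, by rw [h2, h2']; push_cast; ring⟩

lemma Ray.smul {ω v : ℂ} {a t : ℝ} (h : Ray ω a v) (ht : 0 ≤ t) :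
    Ray ω (t * a) (t * v) := by
  obtain ⟨r, h0, h1, h2⟩ := h
  exact ⟨t * r, by positivity, by gcongr, by rw [h2]; push_cast; ring⟩

lemma Ray.smul₀ {ω v : ℂ} {t : ℝ} (h : Ray ω 0 v) (ht : 0 ≤ t) : Ray ω 0 (t * v) :=
  (h.smul ht).toZero

lemma Ray.add₀ {ω v w : ℂ} (h : Ray ω 0 v) (h' : Ray ω 0 w) : Ray ω 0 (v + w) :=
  (h.add h').toZero

lemma Ray.pow {ω v : ℂ} {a : ℝ} (h : Ray ω a v) (ha : 0 ≤ a) (n : ℕ) :
    Ray (ω ^ n) (a ^ n) (v ^ n) := by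
  obtain ⟨r, h0, h1, h2⟩ := h
  exact ⟨r ^ n, by positivity, by gcongr, by rw [h2]; push_cast; ring⟩

lemma Ray.le_norm {ω v : ℂ} {a : ℝ} (h : Ray ω a v) (hω : ‖ω‖ = 1) : a ≤ ‖v‖ := by
  obtain ⟨r, h0, h1, h2⟩ := h
  rw [h2, norm_mul, hω, Complex.norm_real, Real.norm_of_nonneg h0, mul_one]
  exact h1

lemma ray_pha {ω z : ℂ} (h : Ray ω 0 z) : Ray ω 0 (pha z) := by
  rw [pha_eq]
  exact h.smul₀ (div_nonneg bmp_nonneg (norm_nonneg _))

lemma ray_pha_one {ω z : ℂ} (h : Ray ω 0 z) (hω : ‖ω‖ = 1) (h1 : 3 / 4 ≤ ‖z‖ ^ 2)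
    (h2 : ‖z‖ ^ 2 ≤ 1) : Ray ω 1 (pha z) := by
  obtain ⟨r, h0, -, hz⟩ := h
  have hn : ‖z‖ = r := by
    rw [hz, norm_mul, hω, Complex.norm_real, Real.norm_of_nonneg h0, mul_one]
  have he : eta (‖z‖ ^ 2) = 1 := bmp_eq_one (by linarith) (by linarith)
  have hr : r ≠ 0 := by
    rintro rfl
    rw [hn] at h1; norm_num at h1
  refine ⟨1, zero_le_one, le_rfl, ?_⟩
  rw [pha_eq, he, hn, hz]
  have : (r : ℂ) ≠ 0 := by exact_mod_cast hr
  push_cast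
  field_simp

lemma ray_nrm₀ {ω V : ℂ} (h : Ray ω 0 V) : Ray ω 0 (nrm V).z := by
  rw [nrm_z]
  exact h.smul₀ (by positivity)

lemma ray_nrm {ω V : ℂ} {a : ℝ} (h : Ray ω a V) (hω : ‖ω‖ = 1) (ha0 : 0 ≤ a) (ha : a ≤ 1) :
    Ray ω (a / 2) (nrm V).z := by
  obtain ⟨r, h0, h1, hV⟩ := h
  have hn : ‖V‖ = r := by
    rw [hV, norm_mul, hω, Complex.norm_real, Real.norm_of_nonneg h0, mul_one]
  have hpos : 0 < √(1 + r ^ 2) := Real.sqrt_pos.2 (by positivity)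
  refine ⟨(√(1 + r ^ 2))⁻¹ * r, by positivity, ?_, ?_⟩
  · rw [inv_mul_eq_div, le_div_iff₀ hpos]
    have h3 : √(1 + r ^ 2) ≤ 1 + r := Real.sqrt_le_iff.2 ⟨by positivity, by nlinarith⟩
    have h4 : a / 2 * √(1 + r ^ 2) ≤ a / 2 * (1 + r) := by gcongr
    nlinarith
  · rw [nrm_z, hn, hV]; push_cast; ring

/-! ### The sphere component on coherent data -/

lemma mobA_nonneg {ω z W : ℂ} (hω : ‖ω‖ = 1) (hz : Ray ω 0 (z ^ 2)) (hW : Ray ω 0 W) (s : ℝ) :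
    ‖W‖ ^ 2 * (1 - s) ^ 2 ≤ mobA z s W := by
  obtain ⟨r, h0, -, hz⟩ := hz
  obtain ⟨r', h0', -, hW⟩ := hW
  have h1 : z ^ 2 * conj W = ((r * r' : ℝ) : ℂ) := by
    have h2 : ω * conj ω = 1 := by
      rw [Complex.mul_conj, Complex.normSq_eq_norm_sq, hω]; simp
    rw [hz, hW, map_mul, Complex.conj_ofReal]
    push_cast
    linear_combination (r * r' : ℂ) * h2
  unfold mobA
  rw [h1, Complex.ofReal_re]
  have : 0 ≤ r * r' := mul_nonneg h0 h0'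
  linarith

lemma ray_mob {ω : ℂ} (x : S2) {W : ℂ} (hz : Ray ω 0 (x.z ^ 2)) (hW : Ray ω 0 W) :
    Ray ω 0 (mob x W).z := by
  rw [mob_z]
  have hN := mobN_pos x.norm_sq_add W
  exact (hz.add₀ (hW.smul₀ (sq_nonneg _))).smul₀ (by positivity)

lemma qq_le_mob {ω : ℂ} (hω : ‖ω‖ = 1) (x : S2) {W : ℂ} (hz : Ray ω 0 (x.z ^ 2))
    (hW : Ray ω 0 W) : qq x.s ≤ (mob x W).s := by
  have hN := mobN_pos x.norm_sq_add W
  have hA : 0 ≤ mobA x.z x.s W := le_trans (by positivity) (mobA_nonneg hω hz hW x.s)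
  rw [mob_s, qq, div_le_div_iff₀ (by positivity) hN]
  unfold mobN
  nlinarith [mul_nonneg hA (sq_nonneg (1 - x.s))]

lemma half_le_mob {ω : ℂ} (hω : ‖ω‖ = 1) (x : S2) {W : ℂ} (hz : Ray ω 0 (x.z ^ 2))
    (hW : Ray ω 2 W) : 1 / 2 ≤ (mob x W).s := by
  have hN := mobN_pos x.norm_sq_add W
  have hA := mobA_nonneg hω hz hW.toZero x.s
  have h2 : 2 ≤ ‖W‖ := hW.le_norm hω
  have h3 : 4 * (1 - x.s) ^ 2 ≤ ‖W‖ ^ 2 * (1 - x.s) ^ 2 := by
    gcongr; nlinarith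
  rw [mob_s, le_div_iff₀ hN]
  unfold mobN
  nlinarith [sq_nonneg x.s]

lemma lam_mul_cc : lam * cc = 2 := by
  unfold lam; field_simp [cc_pos.ne']

lemma lam_pos : 0 < lam := div_pos two_pos cc_pos

end Crest.Agent.R123
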