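import Crest.Agent.R123.Lift

/-!
# Row 123 (S0163): cones over the equator and the chain data on the sphere
-/

noncomputable section

open scoped Real ComplexConjugate Topology

namespace Crest.Agent.R123

lemma continuous_mul_bounded {X : Type*} [TopologicalSpace X] {ρ : X → ℝ} {e : X → ℂ}
    (hρ : Continuous ρ) (he : ∀ x, ‖e x‖ ≤ 1) (hc : ∀ x, ρ x ≠ 0 → ContinuousAt e x) :
    Continuous fun x => (ρ x : ℂ) * e x := by
  rw [continuous_iff_continuousAt]
  intro x
  by_cases h : ρ x = 0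
  · unfold ContinuousAt
    simp only [h, Complex.ofReal_zero, zero_mul]
    refine squeeze_zero_norm (a := fun y => |ρ y|) (fun y => ?_) ?_
    · rw [norm_mul, Complex.norm_real, Real.norm_eq_abs]
      exact mul_le_of_le_one_right (abs_nonneg _) (he y)
    · have := hρ.abs.tendsto x
      rwa [h, abs_zero] at this
  · exact (Complex.continuous_ofReal.comp hρ).continuousAt.mul (hc x h)

/-- The unit complex number of angle `2 π θ`. -/
def ex (θ : ℝ) : ℂ := Complex.exp ((2 * π * θ : ℝ) * Complex.I)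

lemma norm_ex (θ : ℝ) : ‖ex θ‖ = 1 := Complex.norm_exp_ofReal_mul_I _

lemma ex_add_one (θ : ℝ) : ex (θ + 1) = ex θ := by
  unfold ex
  rw [show ((2 * π * (θ + 1) : ℝ) : ℂ) * Complex.I =
    ((2 * π * θ : ℝ) : ℂ) * Complex.I + 2 * π * Complex.I by push_cast; ring,
    Complex.exp_add, Complex.exp_two_pi_mul_I, mul_one]

lemma ex_two_mul (θ : ℝ) : ex (2 * θ) = ex θ ^ 2 := by
  unfold ex
  rw [← Complex.exp_nat_mul]
  congr 1
  push_cast; ring

@[fun_prop] lemma continuous_ex : Continuous ex := by unfold ex; fun_prop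

@[fun_prop] lemma continuous_coord {n : ℕ} (k : Fin (n + 1)) :
    Continuous fun t : Sx n => t k :=
  (continuous_apply k).comp continuous_subtype_val

/-- The angle on a cone. -/
def cang {n : ℕ} (a : Fin (n + 1) → ℝ) (t : Sx (n + 1)) : ℝ := (∑ k, a k * t k.succ) / (1 - t 0)

lemma one_sub_sq_nonneg {n : ℕ} (t : Sx n) : 0 ≤ 1 - t 0 ^ 2 := by
  have h1 := stdSimplex.zero_le t 0
  have h2 := stdSimplex.le_one t 0
  nlinarith

lemma cone_mem {n : ℕ} {ε : ℝ} (hε : ε ^ 2 = 1) (a : Fin (n + 1) → ℝ) (t : Sx (n + 1)) :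
    ‖((√(1 - t 0 ^ 2) : ℝ) : ℂ) * ex (cang a t)‖ ^ 2 + (ε * t 0) ^ 2 = 1 := by
  rw [norm_mul, norm_ex, mul_one, Complex.norm_real, Real.norm_eq_abs, sq_abs,
    Real.sq_sqrt (one_sub_sq_nonneg t), mul_pow, hε]
  ring

/-- The cone from a pole over the affine simplex on the equator with angles `a`. -/
def cone {n : ℕ} {ε : ℝ} (hε : ε ^ 2 = 1) (a : Fin (n + 1) → ℝ) : C(Sx (n + 1), S2) where
  toFun t := S2.mk (((√(1 - t 0 ^ 2) : ℝ) : ℂ) * ex (cang a t)) (ε * t 0) (cone_mem hε a t)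
  continuous_toFun := by
    refine S2.continuous_mk ?_ (by fun_prop) _
    refine continuous_mul_bounded (by fun_prop) (fun t => (norm_ex _).le) fun t ht => ?_
    refine continuous_ex.continuousAt.comp ?_
    unfold cang
    refine ContinuousAt.div (Continuous.continuousAt (by fun_prop))
      (Continuous.continuousAt (by fun_prop)) fun h => ht ?_
    have : t 0 = 1 := by linarith
    simp [this]

lemma cone_z {n : ℕ} {ε : ℝ} (hε : ε ^ 2 = 1) (a : Fin (n + 1) → ℝ) (t : Sx (n + 1)) :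
    (cone hε a t).z = ((√(1 - t 0 ^ 2) : ℝ) : ℂ) * ex (cang a t) := rfl

lemma cone_s {n : ℕ} {ε : ℝ} (hε : ε ^ 2 = 1) (a : Fin (n + 1) → ℝ) (t : Sx (n + 1)) :
    (cone hε a t).s = ε * t 0 := rfl

lemma cone_face_zero {n : ℕ} {ε ε' : ℝ} (hε : ε ^ 2 = 1) (hε' : ε' ^ 2 = 1)
    (a : Fin (n + 1) → ℝ) :
    (cone hε a).comp (face n 0) = (cone hε' a).comp (face n 0) := by
  ext1 t
  refine S2.ext' rfl ?_
  rw [ContinuousMap.comp_apply, ContinuousMap.comp_apply, cone_s, cone_s, face_apply_self,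
    mul_zero, mul_zero]

lemma cone_face_succ {n : ℕ} {ε : ℝ} (hε : ε ^ 2 = 1) (a : Fin (n + 2) → ℝ) (i : Fin (n + 2)) :
    (cone hε a).comp (face (n + 1) i.succ) = cone hε (fun k => a (i.succAbove k)) := by
  ext1 t
  have h0 : face (n + 1) i.succ t 0 = t 0 := by
    have := face_apply_succAbove (n + 1) i.succ t 0
    rwa [Fin.succ_succAbove_zero] at this
  have h1 : cang a (face (n + 1) i.succ t) = cang (fun k => a (i.succAbove k)) t := by
    unfold cang
    rw [h0, Fin.sum_univ_succAbove _ i, face_apply_self, mul_zero, zero_add]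
    congr 1
    refine Finset.sum_congr rfl fun k _ => ?_
    rw [← Fin.succ_succAbove_succ, face_apply_succAbove]
  refine S2.ext' ?_ ?_
  · rw [ContinuousMap.comp_apply, cone_z, cone_z, h0, h1]
  · rw [ContinuousMap.comp_apply, cone_s, cone_s, h0]

lemma cone_add_one {n : ℕ} {ε : ℝ} (hε : ε ^ 2 = 1) {a b : Fin (n + 1) → ℝ}
    (h : ∀ k, b k = a k + 1) : cone hε b = cone hε a := by
  ext1 t
  refine S2.ext' ?_ rfl
  rw [cone_z, cone_z]
  by_cases ht : t 0 = 1
  · simp [ht]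
  · have h1 : 1 - t 0 ≠ 0 := fun h => ht (by linarith)
    have h2 : ∑ k : Fin (n + 1), t k.succ = 1 - t 0 := by
      have := stdSimplex.sum_eq_one t
      rw [Fin.sum_univ_succ] at this
      linarith
    have h3 : cang b t = cang a t + 1 := by
      unfold cang
      simp only [h, add_mul, one_mul, Finset.sum_add_distrib, h2]
      field_simp
    rw [h3, ex_add_one]

/-! ### The angle doubling map and its homotopy to `sq` -/

/-- The height along the homotopy. -/
def hs (r s : ℝ) : ℝ := (1 - r) * (2 * s / (1 + s ^ 2)) + r * s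

lemma hs_sq_le {r s : ℝ} (h0 : 0 ≤ r) (h1 : r ≤ 1) (hs1 : s ^ 2 ≤ 1) : hs r s ^ 2 ≤ 1 := by
  have hpos : 0 < 1 + s ^ 2 := by positivity
  have a1 : 2 * s / (1 + s ^ 2) ≤ 1 := by rw [div_le_one hpos]; nlinarith [sq_nonneg (s - 1)]
  have a2 : -1 ≤ 2 * s / (1 + s ^ 2) := by
    rw [le_div_iff₀ hpos]; nlinarith [sq_nonneg (s + 1)]
  have a3 : s ≤ 1 := by nlinarith
  have a4 : -1 ≤ s := by nlinarith
  have b1 : hs r s ≤ 1 := by unfold hs; nlinarith
  have b2 : -1 ≤ hs r s := by unfold hs; nlinarith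
  nlinarith

lemma hs_of_sq_eq_one {r s : ℝ} (h : s ^ 2 = 1) : hs r s = s := by
  unfold hs; rw [h]; ring

lemma S2.sq_s_le (x : S2) : x.s ^ 2 ≤ 1 := by nlinarith [x.norm_sq_add, sq_nonneg ‖x.z‖]

lemma S2.sq_s_of_z {x : S2} (h : x.z = 0) : x.s ^ 2 = 1 := by
  have := x.norm_sq_add
  rw [h] at this; simpa using this

lemma dbl_mem (r : unitInterval) (x : S2) :
    ‖((√(1 - hs r x.s ^ 2) : ℝ) : ℂ) * (x.z / (‖x.z‖ : ℝ)) ^ 2‖ ^ 2 + hs r x.s ^ 2 = 1 := by
  have h := hs_sq_le r.2.1 r.2.2 x.sq_s_le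
  by_cases hz : x.z = 0
  · rw [hs_of_sq_eq_one (S2.sq_s_of_z hz), S2.sq_s_of_z hz]; simp
  · have hn : ‖x.z‖ ≠ 0 := norm_ne_zero_iff.2 hz
    rw [norm_mul, norm_pow, norm_div, Complex.norm_real, Complex.norm_real, norm_norm,
      div_self hn, one_pow, mul_one, Real.norm_eq_abs, sq_abs, Real.sq_sqrt (by linarith)]
    ring

/-- The homotopy from `sq` to the angle doubling map. -/
def dbl : C(unitInterval × S2, S2) where
  toFun p := S2.mk (((√(1 - hs p.1 p.2.s ^ 2) : ℝ) : ℂ) * (p.2.z / (‖p.2.z‖ : ℝ)) ^ 2)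
    (hs p.1 p.2.s) (dbl_mem p.1 p.2)
  continuous_toFun := by
    have hc : Continuous fun p : unitInterval × S2 => hs p.1 p.2.s := by
      unfold hs
      refine Continuous.add (Continuous.mul (by fun_prop)
        (Continuous.div (by fun_prop) (by fun_prop) fun p => by positivity)) (by fun_prop)
    refine S2.continuous_mk ?_ hc _
    refine continuous_mul_bounded (by fun_prop) (fun p => ?_) fun p hp => ?_
    · rw [norm_pow, norm_div, Complex.norm_real, norm_norm]
      exact pow_le_one₀ (by positivity) (div_self_le_one _)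
    · have hz : p.2.z ≠ 0 := fun hz => hp (by
        rw [hs_of_sq_eq_one (S2.sq_s_of_z hz), S2.sq_s_of_z hz]; simp)
      refine ContinuousAt.pow (ContinuousAt.div (Continuous.continuousAt (by fun_prop))
        (Continuous.continuousAt (by fun_prop)) ?_) 2
      exact_mod_cast norm_ne_zero_iff.2 hz

lemma dbl_z (r : unitInterval) (x : S2) : (dbl (r, x)).z =
    ((√(1 - hs r x.s ^ 2) : ℝ) : ℂ) * (x.z / (‖x.z‖ : ℝ)) ^ 2 := rfl

lemma dbl_s (r : unitInterval) (x : S2) : (dbl (r, x)).s = hs r x.s := rfl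

/-- The angle doubling map. -/
def gg : C(S2, S2) := dbl.comp ⟨fun x => (1, x), by fun_prop⟩

lemma hs_one (s : ℝ) : hs (1 : unitInterval) s = s := by simp [hs]

lemma dbl_zero (x : S2) : dbl (0, x) = sq x := by
  have hpos : 0 < 1 + x.s ^ 2 := by positivity
  have h0 : hs (0 : unitInterval) x.s = 2 * x.s / (1 + x.s ^ 2) := by simp [hs]
  refine S2.ext' ?_ (by rw [dbl_s, sq_s, h0])
  rw [dbl_z, sq_z, h0]
  have h1 : 1 - (2 * x.s / (1 + x.s ^ 2)) ^ 2 = (‖x.z‖ ^ 2 / (1 + x.s ^ 2)) ^ 2 := by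
    have : ‖x.z‖ ^ 2 = 1 - x.s ^ 2 := by linarith [x.norm_sq_add]
    rw [this]; field_simp; ring
  rw [h1, Real.sqrt_sq (by positivity)]
  by_cases hz : x.z = 0
  · simp [hz]
  · have hn : ((‖x.z‖ : ℝ) : ℂ) ≠ 0 := by exact_mod_cast norm_ne_zero_iff.2 hz
    have hp : ((1 + x.s ^ 2 : ℝ) : ℂ) ≠ 0 := by exact_mod_cast hpos.ne'
    rw [Complex.ofReal_div, Complex.ofReal_pow]
    field_simp

lemma sq_homotopic_gg : sq.Homotopic gg :=
  ⟨{ toContinuousMap := dbl, map_zero_left := dbl_zero, map_one_left := fun _ => rfl }⟩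

lemma gg_cone {n : ℕ} {ε : ℝ} (hε : ε ^ 2 = 1) {a b : Fin (n + 1) → ℝ}
    (h : ∀ k, b k = 2 * a k) : gg.comp (cone hε a) = cone hε b := by
  ext1 t
  have h1 : (gg.comp (cone hε a)) t = dbl (1, cone hε a t) := rfl
  rw [h1]
  refine S2.ext' ?_ (by rw [dbl_s, hs_one]; rfl)
  rw [dbl_z, hs_one, cone_s, cone_z, cone_z, mul_pow, hε, one_mul]
  have h3 : cang b t = 2 * cang a t := by
    unfold cang
    simp only [h, mul_assoc, ← Finset.mul_sum, mul_div_assoc]
  rw [h3, ex_two_mul, norm_mul, norm_ex, mul_one, Complex.norm_real,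
    Real.norm_of_nonneg (Real.sqrt_nonneg _)]
  by_cases h0 : √(1 - t 0 ^ 2) = 0
  · simp [h0]
  · have : ((√(1 - t 0 ^ 2) : ℝ) : ℂ) ≠ 0 := by exact_mod_cast h0
    field_simp

/-! ### Evaluation of the cocycle -/

/-- A section of the line bundle off the south pole. -/
def secP : C(S2, ℂ × ℂ) := ⟨fun x => (conj x.z, 1 + x.s), by fun_prop⟩
/-- A section of the line bundle off the north pole. -/
def secM : C(S2, ℂ × ℂ) := ⟨fun x => (1 - x.s, x.z), by fun_prop⟩

lemma hp1 : (1 : ℝ) ^ 2 = 1 := by norm_num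
lemma hm1 : (-1 : ℝ) ^ 2 = 1 := by norm_num

lemma isLift_P {n : ℕ} (a : Fin (n + 1) → ℝ) : IsLift (cone hp1 a) (secP.comp (cone hp1 a)) := by
  intro t
  constructor
  · intro h
    have h1 : (1 : ℂ) + (cone hp1 a t).s = 0 := congrArg Prod.snd h
    have h2 : 1 + (cone hp1 a t).s = 0 := by exact_mod_cast h1
    rw [cone_s] at h2
    linarith [stdSimplex.zero_le t 0]
  · have := (cone hp1 a t).mul_conj
    refine ⟨mul_comm _ _, ?_⟩
    change (cone hp1 a t).z * conj (cone hp1 a t).z = _ * (1 + ((cone hp1 a t).s : ℂ))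
    linear_combination this

lemma isLift_M {n : ℕ} (a : Fin (n + 1) → ℝ) : IsLift (cone hm1 a) (secM.comp (cone hm1 a)) := by
  intro t
  constructor
  · intro h
    have h1 : (1 : ℂ) - (cone hm1 a t).s = 0 := congrArg Prod.fst h
    have h2 : 1 - (cone hm1 a t).s = 0 := by exact_mod_cast h1
    rw [cone_s] at h2
    linarith [stdSimplex.zero_le t 0]
  · have := (cone hm1 a t).mul_conj
    refine ⟨?_, mul_comm _ _⟩
    change conj (cone hm1 a t).z * (cone hm1 a t).z = _ * (1 - ((cone hm1 a t).s : ℂ))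
    linear_combination this

lemma cone_faces_eq {ε : ℝ} (hε : ε ^ 2 = 1) :
    (cone hε ![0, 1]).comp (face 1 1) = (cone hε ![0, 1]).comp (face 1 2) := by
  have h1 := cone_face_succ hε ![0, 1] 0
  have h2 := cone_face_succ hε ![0, 1] 1
  refine h1.trans (Eq.trans ?_ h2.symm)
  refine cone_add_one hε fun k => ?_
  fin_cases k
  simp [Fin.succAbove]

lemma euler_cone {σ : C(Sx 2, S2)} {V : C(S2, ℂ × ℂ)} (hV : IsLift σ (V.comp σ))
    (h : σ.comp (face 1 1) = σ.comp (face 1 2)) :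
    euler σ = WW (lft (σ.comp (face 1 0))) (V.comp (σ.comp (face 1 0))) := by
  rw [euler_eq hV]
  unfold edgeW
  simp only [ContinuousMap.comp_assoc, h]
  ring

lemma euler_ne : euler (cone hp1 ![0, 1]) ≠ euler (cone hm1 ![0, 1]) := by
  rw [euler_cone (isLift_P _) (cone_faces_eq _), euler_cone (isLift_M _) (cone_faces_eq _),
    ← cone_face_zero hp1 hm1]
  have hP : IsLift ((cone hp1 ![0, 1]).comp (face 1 0))
      (secP.comp ((cone hp1 ![0, 1]).comp (face 1 0))) := (isLift_P _).comp (face 1 0)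
  have hM : IsLift ((cone hp1 ![0, 1]).comp (face 1 0))
      (secM.comp ((cone hp1 ![0, 1]).comp (face 1 0))) := by
    rw [cone_face_zero hp1 hm1]; exact (isLift_M _).comp (face 1 0)
  rw [← WW_add (lft_spec _) hM hP]
  have hz : ∀ t : Sx 1, (cone hp1 ![0, 1] (face 1 0 t)).z = ex (t 1) := by
    intro t
    have h0 := face_apply_self 1 0 t
    have h2 : face 1 0 t 2 = t 1 := face_apply_succAbove 1 0 t 1
    rw [cone_z, cang, h0, Fin.sum_univ_two]
    simp [h2]
  have hW : WW (secM.comp ((cone hp1 ![0, 1]).comp (face 1 0)))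
      (secP.comp ((cone hp1 ![0, 1]).comp (face 1 0))) = -(2 * π) := by
    unfold WW
    rw [wind_eq (L := ⟨fun t : Sx 1 => (Real.log 2 : ℂ) - ((2 * π * t 1 : ℝ) : ℂ) * Complex.I,
      by fun_prop⟩)]
    · simp
    · intro t
      change _ = conj (1 - ((cone hp1 ![0, 1] (face 1 0 t)).s : ℂ)) *
        conj (cone hp1 ![0, 1] (face 1 0 t)).z + conj (cone hp1 ![0, 1] (face 1 0 t)).z *
          (1 + ((cone hp1 ![0, 1] (face 1 0 t)).s : ℂ))
      rw [hz, map_sub, map_one, Complex.conj_ofReal, ContinuousMap.coe_mk, sub_eq_add_neg,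
        Complex.exp_add, ← Complex.ofReal_exp, Real.exp_log two_pos, ex, ← Complex.exp_conj,
        map_mul, Complex.conj_ofReal, Complex.conj_I, mul_neg]
      push_cast; ring
  rw [hW]
  have := Real.pi_pos
  intro h
  linarith

theorem exists_chainData_S2 : ∃ (g : C(S2, S2)) (σp σm : C(Sx 2, S2)) (τp τm : C(Sx 3, S2))
    (w : C(Sx 2, S2) → ℝ), sq.Homotopic g ∧ ChainData g σp σm τp τm w := by
  have t1 : ∀ {ε : ℝ} (hε : ε ^ 2 = 1),
      (cone hε ![0, 1, 2]).comp (face 2 1) = cone hε ![0, 1] := fun hε => by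
    refine (cone_face_succ hε ![0, 1, 2] 0).trans (cone_add_one hε fun k => ?_)
    fin_cases k
    · simp
    · simp; norm_num
  have t2 : ∀ {ε : ℝ} (hε : ε ^ 2 = 1),
      (cone hε ![0, 1, 2]).comp (face 2 2) = gg.comp (cone hε ![0, 1]) := fun hε => by
    refine (cone_face_succ hε ![0, 1, 2] 1).trans (gg_cone hε fun k => ?_).symm
    fin_cases k <;> simp [Fin.succAbove]
  have t3 : ∀ {ε : ℝ} (hε : ε ^ 2 = 1),
      (cone hε ![0, 1, 2]).comp (face 2 3) = cone hε ![0, 1] := fun hε => by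
    refine (cone_face_succ hε ![0, 1, 2] 2).trans ?_
    congr 1
    funext k
    fin_cases k <;> simp [Fin.succAbove]
  exact ⟨gg, cone hp1 ![0, 1], cone hm1 ![0, 1], cone hp1 ![0, 1, 2], cone hm1 ![0, 1, 2], euler,
    sq_homotopic_gg, euler_cocycle, euler_ne, cone_face_zero _ _ _, cone_faces_eq _,
    cone_faces_eq _, cone_face_zero _ _ _, t1 _, t2 _, t3 _, t1 _, t2 _, t3 _⟩

end Crest.Agent.R123
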