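import Crest.Agent.R123.Cycle

/-!
# Row 123 (S0163): consecutive points of every orbit come together
-/

noncomputable section

open Filter Topology
open scoped Real

namespace Crest.Agent.R123

lemma tendsto_sub_of_tendsto {u : ℕ → ℝ} {a : ℝ} (h : Tendsto u atTop (𝓝 a)) :
    Tendsto (fun n => u (n + 1) - u n) atTop (𝓝 0) := by
  simpa using ((tendsto_add_atTop_iff_nat 1).2 h).sub h

lemma tendsto_dist_S2 {x y : ℕ → S2} (hz : Tendsto (fun n => ‖(x n).z - (y n).z‖) atTop (𝓝 0))
    (hs : Tendsto (fun n => (x n).s - (y n).s) atTop (𝓝 0)) :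
    Tendsto (fun n => dist (x n) (y n)) atTop (𝓝 0) := by
  have h1 : ∀ n, dist (x n) (y n) = √(‖(x n).z - (y n).z‖ ^ 2 + ((x n).s - (y n).s) ^ 2) := by
    intro n
    rw [Subtype.dist_eq, dist_eq_norm, ← Real.sqrt_sq (norm_nonneg ((x n : E3) - y n)),
      norm_sq_E3]
    rfl
  simp only [h1]
  have h2 := ((hz.pow 2).add (hs.pow 2)).sqrt
  simpa using h2

/-- A bounded orbit of a monotone map of the line converges. -/
lemma exists_tendsto_of_monotone_map {g : ℝ → ℝ} {u : ℕ → ℝ} {a b : ℝ}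
    (hg : MonotoneOn g (Set.Icc a b)) (hu : ∀ n, u n ∈ Set.Icc a b)
    (hs : ∀ n, u (n + 1) = g (u n)) : ∃ c, Tendsto u atTop (𝓝 c) := by
  rcases le_total (u 0) (u 1) with h | h
  · have hm : Monotone u := monotone_nat_of_le_succ fun n => by
      induction n with
      | zero => exact h
      | succ n ih => rw [hs (n + 1), hs n]; rw [hs n] at ih; rw [← hs n] at ih ⊢; rw [hs n]
                     exact hg (hu n) (by rw [← hs n]; exact hu _) (by rw [← hs n]; exact ih)
    exact ⟨_, tendsto_atTop_ciSup hm ⟨b, by rintro _ ⟨n, rfl⟩; exact (hu n).2⟩⟩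
  · have hm : Antitone u := antitone_nat_of_succ_le fun n => by
      induction n with
      | zero => exact h
      | succ n ih => rw [hs (n + 1), hs n]
                     exact hg (by rw [← hs n]; exact hu _) (hu n) (by rw [← hs n]; exact ih)
    exact ⟨_, tendsto_atTop_ciInf hm ⟨a, by rintro _ ⟨n, rfl⟩; exact (hu n).1⟩⟩

lemma S2.norm_z_le (x : S2) : ‖x.z‖ ≤ 1 := by
  have h := x.norm_sq_add
  nlinarith [sq_nonneg x.s, norm_nonneg x.z]

lemma tendsto_reg {y : ℕ → S2} (hy : ∀ n, y (n + 1) = nrm ((lam : ℝ) * (y n).z)) :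
    Tendsto (fun n => dist (y n) (y (n + 1))) atTop (𝓝 0) := by
  have hl := lam_pos
  have hnorm : ∀ n, ‖((lam : ℝ) : ℂ) * (y n).z‖ = lam * ‖(y n).z‖ := fun n => by
    rw [norm_mul, Complex.norm_real, Real.norm_of_nonneg hl.le]
  have hz : ∀ n, (y (n + 1)).z =
      (((√(1 + (lam * ‖(y n).z‖) ^ 2))⁻¹ * lam : ℝ) : ℂ) * (y n).z := fun n => by
    rw [hy, nrm_z, hnorm]; push_cast; ring
  have hr : ∀ n, ‖(y (n + 1)).z‖ = (√(1 + (lam * ‖(y n).z‖) ^ 2))⁻¹ * lam * ‖(y n).z‖ :=
    fun n => by rw [hz, norm_mul, Complex.norm_real, Real.norm_of_nonneg (by positivity)]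
  obtain ⟨c, hc⟩ := exists_tendsto_of_monotone_map (a := 0) (b := 1)
    (g := fun r => (√(1 + (lam * r) ^ 2))⁻¹ * lam * r) (u := fun n => ‖(y n).z‖) (by
      intro r hr r' hr' hle
      have h1 : 0 < √(1 + (lam * r) ^ 2) := Real.sqrt_pos.2 (by positivity)
      have h2 : 0 < √(1 + (lam * r') ^ 2) := Real.sqrt_pos.2 (by positivity)
      have hr0 := hr.1
      have hr0' := hr'.1
      simp only
      rw [mul_assoc, mul_assoc, inv_mul_eq_div, inv_mul_eq_div, div_le_div_iff₀ h1 h2]
      apply le_of_sq_le_sq _ (by positivity)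
      · rw [mul_pow, mul_pow (lam * r'), Real.sq_sqrt (by positivity),
          Real.sq_sqrt (by positivity)]
        have : (lam * r) ^ 2 ≤ (lam * r') ^ 2 := by gcongr
        nlinarith)
    (fun n => ⟨norm_nonneg _, S2.norm_z_le _⟩) hr
  apply tendsto_dist_S2
  · have h1 : ∀ n, ‖(y n).z - (y (n + 1)).z‖ = |‖(y (n + 1)).z‖ - ‖(y n).z‖| := by
      intro n
      rw [hr, hz]
      generalize (√(1 + (lam * ‖(y n).z‖) ^ 2))⁻¹ * lam = μ
      have : (y n).z - (μ : ℂ) * (y n).z = ((1 - μ : ℝ) : ℂ) * (y n).z := by push_cast; ring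
      rw [this, norm_mul, Complex.norm_real, Real.norm_eq_abs, abs_sub_comm,
        ← abs_norm (y n).z, ← abs_mul, abs_norm]
      congr 1; ring
    simp only [h1]
    simpa using (tendsto_sub_of_tendsto hc).abs
  · have h1 : Tendsto (fun n => (y (n + 1)).s) atTop (𝓝 (√(1 + (lam * c) ^ 2))⁻¹) := by
      simp only [hy, nrm_s, hnorm]
      refine Tendsto.inv₀ (Tendsto.sqrt (((hc.const_mul lam).pow 2).const_add 1)) ?_
      exact (Real.sqrt_pos.2 (by positivity)).ne'
    have h2 := tendsto_sub_of_tendsto ((tendsto_add_atTop_iff_nat (f := fun n => (y n).s) 1).1 h1)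
    simpa using h2.neg

lemma tendsto_sph {x : ℕ → S2} (hx : ∀ n, x (n + 1) = sq (x n)) (h0 : 1 / 4 ≤ |(x 0).s|) :
    Tendsto (fun n => dist (x n) (x (n + 1))) atTop (𝓝 0) := by
  have hs : ∀ n, (x (n + 1)).s = qq (x n).s := fun n => by rw [hx]; rfl
  have hm : Monotone fun n => |(x n).s| := monotone_nat_of_le_succ fun n => by
    rw [hs, abs_qq]; exact le_qq (abs_nonneg _) (S2.abs_s_le _)
  have hc := tendsto_atTop_ciSup hm ⟨1, by rintro _ ⟨n, rfl⟩; exact S2.abs_s_le _⟩
  generalize (⨆ n, |(x n).s|) = c at hc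
  have hc0 : 1 / 4 ≤ c := ge_of_tendsto' hc fun n => h0.trans (hm (Nat.zero_le n))
  have hc1 : c ^ 2 = 1 := by
    have h1 := (tendsto_add_atTop_iff_nat 1).2 hc
    simp only [hs, abs_qq] at h1
    have h2 := tendsto_nhds_unique h1 ((qq_contDiff.continuous.tendsto c).comp hc)
    unfold qq at h2
    rw [eq_div_iff (by positivity)] at h2
    have : c * (c ^ 2 - 1) = 0 := by linarith
    rcases mul_eq_zero.1 this with h | h
    · linarith
    · linarith
  have hs2 : Tendsto (fun n => 1 - (x n).s ^ 2) atTop (𝓝 0) := by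
    have := (hc.pow 2).const_sub 1
    simpa [hc1] using this
  have hz : Tendsto (fun n => ‖(x n).z‖) atTop (𝓝 0) := by
    have h1 : ∀ n, ‖(x n).z‖ = √(1 - (x n).s ^ 2) := fun n => by
      rw [← Real.sqrt_sq (norm_nonneg (x n).z)]
      congr 1; linarith [(x n).norm_sq_add]
    simp only [h1]
    simpa using hs2.sqrt
  apply tendsto_dist_S2
  · refine squeeze_zero (fun n => norm_nonneg _) (fun n => norm_sub_le _ _) ?_
    simpa using hz.add ((tendsto_add_atTop_iff_nat 1).2 hz)
  · refine squeeze_zero_norm (fun n => ?_) hs2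
    have h1 := (x n).abs_s_le
    have h2 : 0 ≤ 1 - (x n).s ^ 2 := by
      rw [abs_le] at h1; nlinarith
    have h3 : (x n).s - qq (x n).s = -((x n).s / (1 + (x n).s ^ 2)) * (1 - (x n).s ^ 2) := by
      unfold qq; field_simp; ring
    rw [hs, h3, Real.norm_eq_abs, abs_mul, abs_neg, abs_of_nonneg h2, abs_div,
      abs_of_pos (by positivity : 0 < 1 + (x n).s ^ 2)]
    have h4 : |(x n).s| / (1 + (x n).s ^ 2) ≤ 1 := by
      rw [div_le_one (by positivity)]; nlinarith [sq_nonneg (x n).s]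
    nlinarith

lemma tendsto_of_not_wrap {m : MM} (hnw : ∀ j, ¬ Wrap (F^[j] m)) :
    Tendsto (fun n => dist (F^[n] m) (F^[n + 1] m)) atTop (𝓝 0) := by
  have hβ : ∀ n, (F^[n + 1] m).β = (F^[n] m).β + (F^[n] m).st := fun n => by
    rw [Function.iterate_succ_apply']; exact F_β_of_not_wrap (hnw n)
  have hm : Monotone fun n => (F^[n] m).β := monotone_nat_of_le_succ fun n => by
    rw [hβ]; linarith [step_nonneg (F^[n] m).β (F^[n] m).x.s, show (F^[n] m).st =
      step (F^[n] m).β (F^[n] m).x.s from rfl]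
  have hc := tendsto_atTop_ciSup hm ⟨8, by rintro _ ⟨n, rfl⟩; exact ang_le _⟩
  have hst : Tendsto (fun n => (F^[n] m).st) atTop (𝓝 0) := by
    refine (tendsto_sub_of_tendsto hc).congr fun n => ?_
    rw [hβ]; ring
  obtain ⟨n₀, hn₀⟩ := eventually_atTop.1 (hst.eventually (gt_mem_nhds one_pos))
  have hwin : ∀ n ≥ n₀, -1 < (F^[n] m).β ∧ (F^[n] m).β < 1 := fun n hn => by
    have h1 := hn₀ n hn
    constructor
    · by_contra h
      have : (F^[n] m).st = 1 := step_eq_one_of_le (not_lt.1 h) _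
      linarith
    · by_contra h
      have : (F^[n] m).st = 1 := step_eq_one_of_ge (not_lt.1 h) _
      linarith
  rw [← tendsto_add_atTop_iff_nat n₀]
  have hit : ∀ n, F^[n + 1 + n₀] m = F (F^[n + n₀] m) := fun n => by
    rw [show n + 1 + n₀ = (n + n₀) + 1 by ring, Function.iterate_succ_apply']
  have hx := tendsto_sph (x := fun n => (F^[n + n₀] m).x) (fun n => by
    rw [hit, F_x, MM.W, outW_eq_zero (by linarith [(hwin (n + n₀) (by omega)).2]), mob_zero])
    (by
      have h1 := hn₀ (0 + n₀) (by omega)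
      have h2 : drv (F^[0 + n₀] m).x.s < 1 := (drv_le_step _ _).trans_lt h1
      by_contra h
      rw [not_le, abs_lt] at h
      have : drv (F^[0 + n₀] m).x.s = 1 := bmp_eq_one (by linarith) (by linarith)
      linarith)
  have hy : ∀ i, Tendsto (fun n => dist ((F^[n + n₀] m).reg i) ((F^[n + 1 + n₀] m).reg i))
      atTop (𝓝 0) := fun i => tendsto_reg (y := fun n => (F^[n + n₀] m).reg i) fun n => by
    obtain ⟨h1, h2⟩ := hwin (n + n₀) (by omega)
    have hk : kil (F^[n + n₀] m).β = 1 := bmp_eq_one (by linarith) (by linarith)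
    have hz : zet (F^[n + n₀] m).β = 0 := bmp_eq_zero_of_ge (by linarith)
    rw [hit, F_reg, MM.V, inV, hk, hz]
    simp
  have hb : Tendsto (fun n => dist (F^[n + n₀] m).2.1 (F^[n + 1 + n₀] m).2.1) atTop (𝓝 0) := by
    have h1 : ∀ n, dist (F^[n + n₀] m).2.1 (F^[n + 1 + n₀] m).2.1 =
        dist 1 (Circle.exp (π / 8 * (F^[n + n₀] m).st)) := fun n => by
      rw [hit, F_b]
      generalize (F^[n + n₀] m).2.1 = b
      generalize Circle.exp (π / 8 * (F^[n + n₀] m).st) = e
      change dist (b : ℂ) ((b * e : Circle) : ℂ) = dist ((1 : Circle) : ℂ) (e : ℂ)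
      rw [dist_eq_norm, dist_eq_norm, Circle.coe_mul, Circle.coe_one, ← mul_one_sub, norm_mul,
        Circle.norm_coe, one_mul]
    simp only [h1]
    have h2 := (Circle.exp.continuous.tendsto _).comp
      (((tendsto_add_atTop_iff_nat n₀).2 hst).const_mul (π / 8))
    have h3 := (tendsto_const_nhds (x := (1 : Circle))).dist h2
    simpa using h3
  have hall := hx.max (hb.max ((hy false).max (hy true)))
  simp only [max_self] at hall
  refine hall.congr fun n => ?_
  rw [show n + n₀ + 1 = n + 1 + n₀ by ring]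
  rfl

theorem tendsto_dist_F (m : MM) :
    Tendsto (fun n => dist (F^[n] m) (F^[n + 1] m)) atTop (𝓝 0) := by
  obtain ⟨n₀, h⟩ := eventually_not_wrap m
  rw [← tendsto_add_atTop_iff_nat n₀]
  refine (tendsto_of_not_wrap h).congr fun n => ?_
  rw [← Function.iterate_add_apply, ← Function.iterate_add_apply,
    show n + n₀ + 1 = n + 1 + n₀ by ring]

end Crest.Agent.R123
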