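import Crest.Agent.R123.Basic

/-!
# Row 123 (S0163): one turn around the base circle leads to a stuck state
-/

noncomputable section

namespace Crest.Agent.R123

/-! ### The predicted base coordinate -/

/-- The predicted base coordinate after `j` steps. -/
def pB (q : ℝ × ℝ) (j : ℕ) : ℝ := (Phi^[j] q).1

lemma pB_succ (q : ℝ × ℝ) (j : ℕ) :
    pB q (j + 1) = pB q j + step (pB q j) (Phi^[j] q).2 := by
  unfold pB; rw [Function.iterate_succ_apply']; rfl

lemma pB_mono (q : ℝ × ℝ) : Monotone (pB q) :=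
  monotone_nat_of_le_succ fun j => by rw [pB_succ]; linarith [step_nonneg (pB q j) (Phi^[j] q).2]

lemma pB_succ_le (q : ℝ × ℝ) (j : ℕ) : pB q (j + 1) ≤ pB q j + 1 := by
  rw [pB_succ]; linarith [step_le_one (pB q j) (Phi^[j] q).2]

lemma pB_succ_of_ge (q : ℝ × ℝ) {j : ℕ} (h : 1 ≤ pB q j) : pB q (j + 1) = pB q j + 1 := by
  rw [pB_succ, step_eq_one_of_ge h]

lemma pB_iterate (q : ℝ × ℝ) (j k : ℕ) : pB (Phi^[j] q) k = pB q (k + j) := by
  unfold pB; rw [Function.iterate_add_apply]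

/-- `M` is the read-out time of register `i`. -/
structure IsReadTime (q : ℝ × ℝ) (i : Bool) (M : ℕ) : Prop where
  le : ctr i - 1 / 2 ≤ pB q M
  lt : ∀ j < M, pB q j < ctr i - 1 / 2

lemma exists_isReadTime {q : ℝ × ℝ} {T : ℕ} (hT : 7 ≤ pB q T) (i : Bool) :
    ∃ M ≤ T, IsReadTime q i M := by
  have hex : ∃ j, ctr i - 1 / 2 ≤ pB q j := ⟨T, by linarith [ctr_le i]⟩
  classical
  exact ⟨Nat.find hex, Nat.find_min' hex (by linarith [ctr_le i]), Nat.find_spec hex,
    fun j hj => not_le.1 (Nat.find_min hex hj)⟩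

lemma IsReadTime.chi_eq_zero {q : ℝ × ℝ} {i : Bool} {M : ℕ} (h : IsReadTime q i M) {j : ℕ}
    (hj : j ≠ M) : chi i (pB q j) = 0 := by
  rcases lt_or_gt_of_ne hj with hj | hj
  · exact chi_eq_zero_of_le i (h.lt j hj).le
  · apply chi_eq_zero_of_ge
    have h1 := pB_mono q (show M + 1 ≤ j from hj)
    rw [pB_succ_of_ge q (by linarith [h.le, ctr_ge i])] at h1
    linarith [h.le]

lemma IsReadTime.lt_of_lt {q : ℝ × ℝ} {i : Bool} {M : ℕ} (h : IsReadTime q i M) {j : ℕ}
    (hj : pB q j < 2) : j < M := by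
  by_contra hle
  have := pB_mono q (not_lt.1 hle)
  linarith [h.le, ctr_ge i]

lemma IsReadTime.gen_eq {q : ℝ × ℝ} {i : Bool} {M : ℕ} (h : IsReadTime q i M) {j N : ℕ}
    (hN : M = N + 1 + j) (z : ℂ) :
    gen i (Phi^[j] q, z) =
      ((cc ^ N * chi i (pB q M) : ℝ) : ℂ) * pha z ^ 2 ^ (N + 2) := by
  have key : ∀ K, genTerm i K (Phi^[j] q, z) =
      ((cc ^ K * chi i (pB q (K + 1 + j)) : ℝ) : ℂ) * pha z ^ 2 ^ (K + 2) := by
    intro K
    rw [← pB_iterate]
    unfold genTerm pB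
    push_cast; ring
  unfold gen
  rw [tsum_eq_single N, key, ← hN]
  intro K hK
  rw [key, h.chi_eq_zero (by omega)]
  simp

lemma exists_good {q : ℝ × ℝ} {T : ℕ} (h0 : pB q 0 ≤ 0) (hT : 7 ≤ pB q T) :
    ∃ i j, chi i (pB q j) = 1 := by
  have hex : ∃ j, 9 / 4 ≤ pB q j := ⟨T, by linarith⟩
  classical
  have h1 := Nat.find_spec hex
  have hne : Nat.find hex ≠ 0 := by
    intro h; rw [h] at h1; linarith
  obtain ⟨k, hk⟩ := Nat.exists_eq_succ_of_ne_zero hne
  have h2 := not_le.1 (Nat.find_min hex (show k < Nat.find hex by omega))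
  have h3 := pB_succ_le q k
  rw [hk] at h1
  by_cases h4 : pB q (k + 1) ≤ 11 / 4
  · exact ⟨false, k + 1, bmp_eq_one (by simp [ctr]; linarith) (by simp [ctr]; linarith)⟩
  · exact ⟨true, k + 1, bmp_eq_one (by simp [ctr]; linarith) (by simp [ctr]; linarith)⟩

/-! ### One turn -/

section cycle

variable {m : MM} {T : ℕ}

lemma pred_eq (hnw : ∀ j < T, ¬ Wrap (F^[j] m)) {j : ℕ} (hj : j ≤ T) :
    (F^[j] m).β = pB (m.β, m.x.s) j ∧
      ((F^[j] m).β ≤ 2 → (F^[j] m).x.s = (Phi^[j] (m.β, m.x.s)).2) := by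
  induction j with
  | zero => exact ⟨rfl, fun _ => rfl⟩
  | succ j ih =>
    obtain ⟨h1, h2⟩ := ih (by omega)
    have h3 := F_β_of_not_wrap (hnw j (by omega))
    rw [Function.iterate_succ_apply', h3, pB_succ, ← h1]
    by_cases hle : (F^[j] m).β ≤ 2
    · refine ⟨by rw [← h2 hle]; rfl, fun _ => ?_⟩
      rw [F_s_of_le hle, h2 hle, Function.iterate_succ_apply']
      rfl
    · have hge : 1 ≤ (F^[j] m).β := by linarith [not_le.1 hle]
      have h4 : (F^[j] m).st = 1 := step_eq_one_of_ge hge _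
      refine ⟨by rw [h4, step_eq_one_of_ge hge], fun h => ?_⟩
      exfalso; linarith [not_le.1 hle]

/-- The data fixed along one turn. -/
structure Turn (m : MM) (T : ℕ) (M : Bool → ℕ) (ω : ℂ) : Prop where
  start : m.β ≤ -7
  nw : ∀ j < T, ¬ Wrap (F^[j] m)
  read : ∀ i, IsReadTime (m.β, m.x.s) i (M i)
  norm : ‖ω‖ = 1
  ray : Ray ω 0 m.x.z

variable {M : Bool → ℕ} {ω : ℂ}

lemma Turn.norm_pow (h : Turn m T M ω) (n : ℕ) : ‖ω ^ n‖ = 1 := by
  rw [_root_.norm_pow, h.norm, one_pow]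

lemma Turn.pos (h : Turn m T M ω) (i : Bool) : 1 < M i := by
  apply (h.read i).lt_of_lt
  have := pB_succ_le (m.β, m.x.s) 0
  have h0 : pB (m.β, m.x.s) 0 = m.β := rfl
  linarith [h.start]

/-- The read-out term lies on the right ray. -/
lemma Turn.ray_term (h : Turn m T M ω) {j : ℕ} (hj : j ≤ T)
    (hY : 1 ≤ j → ∀ i, Ray (ω ^ 2 ^ (M i + 1)) 0 ((F^[j] m).reg i).z) (i : Bool) :
    Ray (ω ^ 2 ^ (j + 1)) 0 (((4 * chi i (F^[j] m).β : ℝ) : ℂ) * ((F^[j] m).reg i).z) := by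
  by_cases hM : j = M i
  · have := hY (by have := h.pos i; omega) i
    rw [← hM] at this
    exact this.smul₀ (mul_nonneg (by norm_num) (chi_nonneg _ _))
  · rw [(pred_eq h.nw hj).1, (h.read i).chi_eq_zero hM]
    simpa using Ray.zero _

lemma Turn.ray_W (h : Turn m T M ω) {j : ℕ} (hj : j ≤ T)
    (hY : 1 ≤ j → ∀ i, Ray (ω ^ 2 ^ (M i + 1)) 0 ((F^[j] m).reg i).z) :
    Ray (ω ^ 2 ^ (j + 1)) 0 (F^[j] m).W :=
  (h.ray_term hj hY false).add₀ (h.ray_term hj hY true)

lemma ray_sq {z : ℂ} {j : ℕ} (hz : Ray (ω ^ 2 ^ j) 0 z) : Ray (ω ^ 2 ^ (j + 1)) 0 (z ^ 2) := by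
  have := (hz.pow le_rfl 2).toZero
  rwa [← pow_mul, ← pow_succ] at this

/-- The generated term, with its size. -/
lemma Turn.ray_gen (h : Turn m T M ω) {j : ℕ} (hj : j ≤ T) (hβ : (F^[j] m).β < 2) (i : Bool)
    {N : ℕ} (hN : M i = N + 1 + j) {a : ℝ} (ha : 0 ≤ a)
    (hz : Ray (ω ^ 2 ^ j) a (pha (F^[j] m).x.z)) :
    Ray (ω ^ 2 ^ (M i + 1)) (cc ^ N * chi i (pB (m.β, m.x.s) (M i)) * a ^ 2 ^ (N + 2))
      (gen i (((F^[j] m).β, (F^[j] m).x.s), (F^[j] m).x.z)) := by
  obtain ⟨h1, h2⟩ := pred_eq h.nw hj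
  have h3 : ((F^[j] m).β, (F^[j] m).x.s) = Phi^[j] (m.β, m.x.s) :=
    Prod.ext h1 (h2 hβ.le)
  rw [h3, (h.read i).gen_eq hN]
  have h4 := hz.pow ha (2 ^ (N + 2))
  rw [← pow_mul, ← pow_add, show j + (N + 2) = M i + 1 by omega] at h4
  exact h4.smul (mul_nonneg (pow_pos cc_pos N).le (chi_nonneg _ _))

lemma Turn.ray_gen₀ (h : Turn m T M ω) {j : ℕ} (hj : j ≤ T) (i : Bool)
    (hz : Ray (ω ^ 2 ^ j) 0 (F^[j] m).x.z) :
    Ray (ω ^ 2 ^ (M i + 1)) 0 (((zet (F^[j] m).β : ℝ) : ℂ) *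
      gen i (((F^[j] m).β, (F^[j] m).x.s), (F^[j] m).x.z)) := by
  by_cases hβ : (F^[j] m).β < 2
  · have hlt : j < M i := (h.read i).lt_of_lt (by rw [← (pred_eq h.nw hj).1]; exact hβ)
    exact (h.ray_gen hj hβ i (N := M i - j - 1) (by omega) le_rfl (ray_pha hz)).toZero.smul₀
      bmp_nonneg
  · have : zet (F^[j] m).β = 0 := bmp_eq_zero_of_ge (by linarith [not_lt.1 hβ])
    rw [this]
    simpa using Ray.zero _

lemma Turn.ray_old (h : Turn m T M ω) {j : ℕ}
    (hY : 1 ≤ j → ∀ i, Ray (ω ^ 2 ^ (M i + 1)) 0 ((F^[j] m).reg i).z) (i : Bool) :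
    Ray (ω ^ 2 ^ (M i + 1)) 0
      (((lam * kil (F^[j] m).β : ℝ) : ℂ) * ((F^[j] m).reg i).z) := by
  rcases Nat.eq_zero_or_pos j with rfl | hj
  · have : kil (F^[0] m).β = 0 := bmp_eq_zero_of_le (by
      have := h.start
      simp only [Function.iterate_zero, id]; linarith)
    rw [this]
    simpa using Ray.zero _
  · exact (hY hj i).smul₀ (mul_nonneg lam_pos.le bmp_nonneg)

/-- Coherence of all phases along the turn. -/
lemma Turn.coherent (h : Turn m T M ω) {j : ℕ} (hj : j ≤ T + 1) :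
    Ray (ω ^ 2 ^ j) 0 (F^[j] m).x.z ∧
      (1 ≤ j → ∀ i, Ray (ω ^ 2 ^ (M i + 1)) 0 ((F^[j] m).reg i).z) := by
  induction j with
  | zero => exact ⟨by simpa using h.ray, fun h => by omega⟩
  | succ j ih =>
    obtain ⟨hz, hY⟩ := ih (by omega)
    have hj' : j ≤ T := by omega
    rw [Function.iterate_succ_apply']
    refine ⟨?_, fun _ i => ?_⟩
    · rw [F_x]
      exact ray_mob _ (ray_sq hz) (h.ray_W hj' hY)
    · rw [F_reg]
      exact ray_nrm₀ ((h.ray_old hY i).add₀ (h.ray_gen₀ hj' i hz))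

lemma Turn.β_one (h : Turn m T M ω) (hT : 1 ≤ T) : (F^[1] m).β = m.β + 1 := by
  have h1 := F_β_of_not_wrap (h.nw 0 (by omega))
  have h2 : m.st = 1 := step_eq_one_of_le (by linarith [h.start]) _
  simp only [Function.iterate_zero, id] at h1
  rw [Function.iterate_one, h1, h2]

/-- The size of the good register. -/
lemma Turn.size (h : Turn m T M ω) (hs : |(F^[1] m).x.s| < 1 / 2) {i : Bool} (hM : M i ≤ T)
    (hgood : chi i (pB (m.β, m.x.s) (M i)) = 1) {N : ℕ} (hN : M i = N + 2) (l k : ℕ)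
    (hl : l + k = N) : Ray (ω ^ 2 ^ (M i + 1)) (cc ^ k / 2) ((F^[l + 2] m).reg i).z := by
  have hcc1 : ∀ k, cc ^ k ≤ 1 := fun k => pow_le_one₀ cc_pos.le (by linarith [cc_le])
  have hβ1 := h.β_one (by omega)
  have hlt : -8 < m.β := lt_ang _
  induction l generalizing k with
  | zero =>
    obtain rfl : k = N := by omega
    obtain ⟨hz, hY⟩ := h.coherent (j := 1) (by omega)
    rw [show 0 + 2 = 1 + 1 from rfl, Function.iterate_succ_apply', F_reg]
    refine ray_nrm ?_ (h.norm_pow _) (pow_pos cc_pos k).le (hcc1 k)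
    have hn := (F^[1] m).x.norm_sq_add
    have hs2 : (F^[1] m).x.s ^ 2 < 1 / 4 := by
      rw [abs_lt] at hs; nlinarith
    have h1 := ray_pha_one hz (h.norm_pow _) (by linarith) (by nlinarith)
    have h2 := h.ray_gen (j := 1) (by omega) (by linarith [h.start]) i (N := k) (by omega)
      zero_le_one h1
    have h3 : zet (F^[1] m).β = 1 := bmp_eq_one (by linarith) (by linarith [h.start])
    have h4 := (h.ray_old hY i).add (h2.smul (t := zet (F^[1] m).β) bmp_nonneg)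
    refine Ray.mono h4 ?_
    rw [h3, hgood]; simp
  | succ l ih =>
    have ih := ih (k + 1) (by omega)
    obtain ⟨hz, -⟩ := h.coherent (j := l + 2) (by omega)
    rw [show l + 1 + 2 = (l + 2) + 1 from rfl, Function.iterate_succ_apply', F_reg]
    refine ray_nrm ?_ (h.norm_pow _) (pow_pos cc_pos k).le (hcc1 k)
    have hb := (pred_eq h.nw (j := l + 2) (by omega)).1
    have hk : kil (F^[l + 2] m).β = 1 := by
      have h1 := (h.read i).lt (l + 2) (by omega)
      have h2 := pB_mono (m.β, m.x.s) (show 2 ≤ l + 2 by omega)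
      have h3 := (pred_eq h.nw (j := 1) (by omega)).1
      have h4 : pB (m.β, m.x.s) 2 = pB (m.β, m.x.s) 1 + 1 := by
        rw [pB_succ, step_eq_one_of_le (by linarith [h.start])]
      apply bmp_eq_one
      · linarith
      · linarith [ctr_le i]
    have h4 := (ih.smul (t := lam * kil (F^[l + 2] m).β)
      (mul_nonneg lam_pos.le bmp_nonneg)).add (h.ray_gen₀ (j := l + 2) (by omega) i hz)
    refine Ray.mono h4 ?_
    rw [hk, pow_succ]
    have := lam_mul_cc
    apply le_of_eq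
    linear_combination (-(cc ^ k) / 2) * this

lemma Turn.half_le (h : Turn m T M ω) (hs : |(F^[1] m).x.s| < 1 / 2) {i : Bool} (hM : M i ≤ T)
    (hgood : chi i (pB (m.β, m.x.s) (M i)) = 1) {j : ℕ} (hj : M i + 1 ≤ j) (hjT : j ≤ T + 1) :
    1 / 2 ≤ (F^[j] m).x.s := by
  induction j, hj using Nat.le_induction with
  | base =>
    obtain ⟨N, hN⟩ : ∃ N, M i = N + 2 := ⟨M i - 2, by have := h.pos i; omega⟩
    have h1 := h.size hs hM hgood hN N 0 rfl
    rw [← hN] at h1
    obtain ⟨hz, hY⟩ := h.coherent (j := M i) (by omega)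
    rw [Function.iterate_succ_apply', F_x]
    refine half_le_mob (h.norm_pow _) _ (ray_sq hz) ?_
    have h2 := h1.smul (t := 4 * chi i (F^[M i] m).β) (mul_nonneg (by norm_num) (chi_nonneg _ _))
    have h3 : 4 * chi i (F^[M i] m).β * (cc ^ 0 / 2) = 2 := by
      rw [(pred_eq h.nw hM).1, hgood]; norm_num
    rw [h3] at h2
    cases i
    · exact (h2.add (h.ray_term hM hY true)).mono (by norm_num)
    · exact ((h.ray_term hM hY false).add h2).mono (by norm_num)
  | succ j hj ih =>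
    have ih := ih (by omega)
    obtain ⟨hz, hY⟩ := h.coherent (j := j) (by omega)
    rw [Function.iterate_succ_apply', F_x]
    refine le_trans ?_ (qq_le_mob (h.norm_pow _) _ (ray_sq hz) (h.ray_W (by omega) hY))
    exact ih.trans (le_qq (by linarith) ((le_abs_self _).trans (F^[j] m).x.abs_s_le))

theorem stuck_after_turn (h0 : m.β ≤ -7) (hnw : ∀ j < T, ¬ Wrap (F^[j] m))
    (hw : Wrap (F^[T] m)) : Stuck (F^[T + 1] m) := by
  have hT : 7 ≤ pB (m.β, m.x.s) T := by
    rw [← (pred_eq hnw le_rfl).1]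
    have h3 : (F^[T] m).st ≤ 1 := step_le_one _ _
    unfold Wrap at hw
    linarith
  choose M hM hread using exists_isReadTime hT
  have hturn : Turn m T M (Complex.exp (Complex.arg m.x.z * Complex.I)) :=
    ⟨h0, hnw, hread, Complex.norm_exp_ofReal_mul_I _,
      ⟨‖m.x.z‖, norm_nonneg _, norm_nonneg _, (Complex.norm_mul_exp_arg_mul_I _).symm⟩⟩
  have hT1 : 1 ≤ T := by have := hturn.pos true; have := hM true; omega
  by_cases hs : |(F^[1] m).x.s| < 1 / 2
  · obtain ⟨i, j, hij⟩ := exists_good (q := (m.β, m.x.s)) (T := T)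
      (show m.β ≤ 0 by linarith) hT
    have hj : j = M i := by
      by_contra hne
      rw [(hread i).chi_eq_zero hne] at hij
      norm_num at hij
    rw [hj] at hij
    refine ⟨?_, (hturn.half_le hs (hM i) hij (by have := hM i; omega) le_rfl).trans
      (le_abs_self _)⟩
    rw [Function.iterate_succ_apply']
    linarith [F_β_of_wrap hw]
  · have hst : Stuck (F^[1] m) := ⟨by rw [hturn.β_one hT1]; linarith, not_lt.1 hs⟩
    have := hst.iterate T
    rwa [← Function.iterate_add_apply] at this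

end cycle

/-- Every orbit passes the cut only finitely often. -/
theorem eventually_not_wrap (m : MM) : ∃ n, ∀ j, ¬ Wrap (F^[j] (F^[n] m)) := by
  classical
  by_cases h1 : ∃ t, Wrap (F^[t] m)
  · obtain ⟨t, ht⟩ := h1
    have h0 : (F^[t + 1] m).β ≤ -7 := by
      rw [Function.iterate_succ_apply']; exact F_β_of_wrap ht
    by_cases h2 : ∃ T, Wrap (F^[T] (F^[t + 1] m))
    · have h3 := stuck_after_turn h0 (fun j hj => Nat.find_min h2 hj) (Nat.find_spec h2)
      refine ⟨Nat.find h2 + 1 + (t + 1), fun j => ?_⟩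
      rw [Function.iterate_add_apply F (Nat.find h2 + 1)]
      exact (h3.iterate j).not_wrap
    · exact ⟨t + 1, fun j hj => h2 ⟨j, hj⟩⟩
  · exact ⟨0, fun j hj => h1 ⟨j, hj⟩⟩

end Crest.Agent.R123
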