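import Mathlib

/-!
# Row 123 (S0163): basic objects

`S2` is the unit sphere of `ℂ × ℝ` with the Euclidean norm, points `x = (z, s)`,
`‖z‖ ^ 2 + s ^ 2 = 1`.  `sq` is the map `u ↦ u ^ 2` of the Riemann sphere written in these
coordinates: `(z, s) ↦ (z ^ 2 / (1 + s ^ 2), 2 * s / (1 + s ^ 2))`.
-/

noncomputable section

namespace Crest.Agent.R123

/-- Euclidean three-space written as `ℂ × ℝ`. -/
abbrev E3 : Type := WithLp 2 (ℂ × ℝ)

instance factFinrankE3 : Fact (Module.finrank ℝ E3 = 2 + 1) :=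
  ⟨by
    rw [(WithLp.linearEquiv 2 ℝ (ℂ × ℝ)).finrank_eq]
    simp⟩

/-- The unit two-sphere. -/
abbrev S2 : Type := Metric.sphere (0 : E3) 1

/-- The point of `E3` with coordinates `(z, s)`. -/
def mk3 (z : ℂ) (s : ℝ) : E3 := WithLp.toLp 2 (z, s)

@[simp] lemma mk3_fst (z : ℂ) (s : ℝ) : (mk3 z s).fst = z := rfl
@[simp] lemma mk3_snd (z : ℂ) (s : ℝ) : (mk3 z s).snd = s := rfl

lemma mk3_eta (v : E3) : mk3 v.fst v.snd = v := rfl

lemma E3_ext {v w : E3} (h1 : v.fst = w.fst) (h2 : v.snd = w.snd) : v = w := by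
  rw [← mk3_eta v, ← mk3_eta w, h1, h2]

lemma norm_sq_E3 (v : E3) : ‖v‖ ^ 2 = ‖v.fst‖ ^ 2 + v.snd ^ 2 := by
  rw [WithLp.prod_norm_sq_eq_of_L2]
  simp

lemma mem_S2_iff (v : E3) : v ∈ Metric.sphere (0 : E3) 1 ↔ ‖v.fst‖ ^ 2 + v.snd ^ 2 = 1 := by
  rw [mem_sphere_zero_iff_norm, ← norm_sq_E3]
  constructor
  · intro h; rw [h]; norm_num
  · intro h
    have h0 := norm_nonneg v
    nlinarith

/-- The complex coordinate of a point of the sphere. -/
def S2.z (x : S2) : ℂ := (x : E3).fst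
/-- The height of a point of the sphere. -/
def S2.s (x : S2) : ℝ := (x : E3).snd

lemma S2.norm_sq_add (x : S2) : ‖x.z‖ ^ 2 + x.s ^ 2 = 1 := (mem_S2_iff _).1 x.2

lemma S2.ext' {x y : S2} (h1 : x.z = y.z) (h2 : x.s = y.s) : x = y :=
  Subtype.ext (E3_ext h1 h2)

/-- Build a point of the sphere from its coordinates. -/
def S2.mk (z : ℂ) (s : ℝ) (h : ‖z‖ ^ 2 + s ^ 2 = 1) : S2 := ⟨mk3 z s, (mem_S2_iff _).2 h⟩

@[simp] lemma S2.mk_z (z : ℂ) (s : ℝ) (h) : (S2.mk z s h).z = z := rfl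
@[simp] lemma S2.mk_s (z : ℂ) (s : ℝ) (h) : (S2.mk z s h).s = s := rfl

@[fun_prop] lemma continuous_mk3 {X : Type*} [TopologicalSpace X] {f : X → ℂ} {g : X → ℝ}
    (hf : Continuous f) (hg : Continuous g) : Continuous fun x => mk3 (f x) (g x) :=
  (WithLp.prod_continuous_toLp 2 ℂ ℝ).comp (hf.prodMk hg)

@[fun_prop] lemma S2.continuous_z : Continuous S2.z :=
  (WithLp.continuous_fst 2 ℂ ℝ).comp continuous_subtype_val

@[fun_prop] lemma S2.continuous_s : Continuous S2.s :=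
  (WithLp.continuous_snd 2 ℂ ℝ).comp continuous_subtype_val

lemma S2.continuous_mk {X : Type*} [TopologicalSpace X] {f : X → ℂ} {g : X → ℝ}
    (hf : Continuous f) (hg : Continuous g) (h : ∀ x, ‖f x‖ ^ 2 + g x ^ 2 = 1) :
    Continuous fun x => S2.mk (f x) (g x) (h x) :=
  (continuous_mk3 hf hg).subtype_mk _

lemma sq_mem (x : S2) :
    ‖x.z ^ 2 / ((1 + x.s ^ 2 : ℝ) : ℂ)‖ ^ 2 + (2 * x.s / (1 + x.s ^ 2)) ^ 2 = 1 := by
  have h := x.norm_sq_add
  have hpos : (0 : ℝ) < 1 + x.s ^ 2 := by positivity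
  rw [norm_div, norm_pow, Complex.norm_real, Real.norm_of_nonneg hpos.le]
  have : ‖x.z‖ ^ 2 = 1 - x.s ^ 2 := by linarith
  rw [this]
  field_simp
  ring

/-- The squaring map of the Riemann sphere. -/
def sq : C(S2, S2) where
  toFun x := S2.mk (x.z ^ 2 / ((1 + x.s ^ 2 : ℝ) : ℂ)) (2 * x.s / (1 + x.s ^ 2)) (sq_mem x)
  continuous_toFun := by
    refine S2.continuous_mk ?_ ?_ _
    · refine Continuous.div (by fun_prop) (by fun_prop) fun x => ?_
      have hpos : (0 : ℝ) < 1 + x.s ^ 2 := by positivity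
      exact_mod_cast hpos.ne'
    · refine Continuous.div (by fun_prop) (by fun_prop) fun x => ?_
      positivity

@[simp] lemma sq_z (x : S2) : (sq x).z = x.z ^ 2 / ((1 + x.s ^ 2 : ℝ) : ℂ) := rfl
@[simp] lemma sq_s (x : S2) : (sq x).s = 2 * x.s / (1 + x.s ^ 2) := rfl

end Crest.Agent.R123
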