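import Mathlib

/-!
Row 123: a continuous self-map of a compact metric space along whose orbits consecutive iterates
come together has topological entropy zero.
-/

set_option autoImplicit false

namespace Crest.Agent.R123

open Filter Topology Finset

/-- weighted count of sparse codes -/
theorem en_count_codes (A : Type*) [Fintype A] [DecidableEq A] (n : ℕ) (L r : ℝ) (hL : 0 ≤ L) :
    (((univ : Finset (Fin n → Option A)).filter
      (fun c => (((univ : Finset (Fin n)).filter (fun i => c i ≠ none)).card : ℝ) ≤ r)).card : ℝ) ≤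
      Real.exp (L * r) * (1 + Fintype.card A * Real.exp (-L)) ^ n := by
  classical
  let w : Option A → ℝ := fun o => if o ≠ none then Real.exp (-L) else 1
  have hw : ∀ o, 0 ≤ w o := fun o => by
    simp only [w]
    split_ifs <;> positivity
  have h1 : ∑ c : Fin n → Option A, ∏ i, w (c i) = (1 + Fintype.card A * Real.exp (-L)) ^ n := by
    have := Finset.prod_univ_sum (fun _ : Fin n => (univ : Finset (Option A))) (fun _ o => w o)
    rw [Fintype.piFinset_univ] at this
    rw [← this, prod_const, card_univ, Fintype.card_fin, Fintype.sum_option]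
    simp [w]
  rw [← h1, mul_sum]
  set S := (univ : Finset (Fin n → Option A)).filter
      (fun c => (((univ : Finset (Fin n)).filter (fun i => c i ≠ none)).card : ℝ) ≤ r) with hS
  calc (S.card : ℝ) = ∑ _c ∈ S, (1 : ℝ) := by simp
    _ ≤ ∑ c ∈ S, Real.exp (L * r) * ∏ i, w (c i) := by
        refine sum_le_sum fun c hc => ?_
        have hc' := (mem_filter.1 hc).2
        have h2 : ∏ i, w (c i) =
            Real.exp (-L) ^ ((univ : Finset (Fin n)).filter (fun i => c i ≠ none)).card := by
          simp only [w]
          rw [prod_ite, prod_const_one, mul_one, prod_const]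
        rw [h2, ← Real.exp_nat_mul, ← Real.exp_add]
        refine Real.one_le_exp ?_
        nlinarith
    _ ≤ _ := sum_le_sum_of_subset_of_nonneg (subset_univ _) fun c _ _ =>
        mul_nonneg (Real.exp_pos _).le (prod_nonneg fun i _ => hw _)

section Dyn

variable {X : Type*} [MetricSpace X] (f : X → X)

open Classical in
/-- number of times `i < n` at which the orbit of `x` makes a step of length at least `η` -/
noncomputable def enBad (η : ℝ) (x : X) (n : ℕ) : ℕ :=
  ((range n).filter (fun i => η ≤ dist (f^[i] x) (f^[i + 1] x))).card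

theorem enBad_le (η : ℝ) (x : X) (n : ℕ) : enBad f η x n ≤ n := by
  unfold enBad
  exact (card_filter_le _ _).trans (card_range n).le

theorem enBad_add (η : ℝ) (x : X) (m n : ℕ) :
    enBad f η x (m + n) = enBad f η x m + enBad f η (f^[m] x) n := by
  classical
  unfold enBad
  simp only [card_filter]
  rw [sum_range_add]
  congr 1
  refine sum_congr rfl fun i _ => ?_
  rw [← Function.iterate_add_apply, ← Function.iterate_add_apply, add_comm i m,
    show i + 1 + m = m + i + 1 by ring]

theorem enBad_bound [CompactSpace X] (hf : Continuous f)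
    (h : ∀ x, Tendsto (fun n : ℕ => dist (f^[n] x) (f^[n + 1] x)) atTop (𝓝 0))
    {η : ℝ} (hη : 0 < η) (K : ℕ) (hK : 1 ≤ K) :
    ∃ J : ℕ, ∀ n x, K * enBad f η x n ≤ n + K * (K * J) := by
  classical
  let O : ℕ → Set X := fun j =>
    ⋂ i ∈ Finset.Ico (j + 1) (K * (j + 1)), {y | dist (f^[i] y) (f^[i + 1] y) < η}
  have hO : ∀ j, IsOpen (O j) := fun j =>
    isOpen_biInter_finset fun i _ =>
      isOpen_lt ((hf.iterate i).dist (hf.iterate (i + 1))) continuous_const
  have hcov : (Set.univ : Set X) ⊆ ⋃ j, O j := by
    intro x _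
    obtain ⟨j, hj⟩ := eventually_atTop.1 ((h x).eventually (gt_mem_nhds hη))
    refine Set.mem_iUnion.2 ⟨j, ?_⟩
    simp only [O, Set.mem_iInter, Finset.mem_Ico, Set.mem_ofPred_eq]
    intro i hi
    exact hj i (by omega)
  obtain ⟨t, ht⟩ := isCompact_univ.elim_finite_subcover O hO hcov
  refine ⟨t.sup id + 1, fun n => ?_⟩
  induction n using Nat.strong_induction_on with
  | _ n ih =>
    intro x
    by_cases hn : n ≤ K * (t.sup id + 1)
    · have := Nat.mul_le_mul_left K ((enBad_le f η x n).trans hn)
      omega
    · obtain ⟨j, hjt, hxj⟩ : ∃ j ∈ t, x ∈ O j := by simpa using ht (Set.mem_univ x)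
      have hj : j ≤ t.sup id := Finset.le_sup (f := id) hjt
      have hj2 : K * (j + 1) ≤ K * (t.sup id + 1) := Nat.mul_le_mul_left K (by omega)
      have hpos : 0 < K * (j + 1) := by positivity
      obtain ⟨n', rfl⟩ : ∃ n', n = K * (j + 1) + n' := ⟨n - K * (j + 1), by omega⟩
      have h1 := ih n' (by omega) (f^[K * (j + 1)] x)
      have h2 : enBad f η x (K * (j + 1)) ≤ j + 1 := by
        unfold enBad
        refine (card_le_card (t := range (j + 1)) ?_).trans (card_range _).le
        intro i hi
        rw [mem_filter, mem_range] at hi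
        rw [mem_range]
        by_contra hcon
        simp only [O, Set.mem_iInter, Finset.mem_Ico, Set.mem_ofPred_eq] at hxj
        exact absurd (hxj i ⟨by omega, hi.1⟩) (not_lt.2 hi.2)
      rw [enBad_add, mul_add]
      have := Nat.mul_le_mul_left K h2
      omega

theorem en_exists_cover [CompactSpace X] (hf : Continuous f)
    (h : ∀ x, Tendsto (fun n : ℕ => dist (f^[n] x) (f^[n + 1] x)) atTop (𝓝 0))
    {ε : ℝ} (hε : 0 < ε) {a : ℝ} (ha : 0 < a) :
    ∃ B : ℝ, ∀ n : ℕ, ∃ s : Finset X,
      Dynamics.IsDynCoverOf f Set.univ {p : X × X | dist p.1 p.2 < 5 * ε} n s ∧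
        (s.card : ℝ) ≤ B * Real.exp (a * n) := by
  classical
  obtain ⟨T, -, hTfin, hT⟩ := finite_cover_balls_of_compact (isCompact_univ (X := X)) hε
  have hnet : ∀ x : X, ∃ y : hTfin.toFinset, dist x y < ε := by
    intro x
    obtain ⟨y, hy, hxy⟩ : ∃ y ∈ T, x ∈ Metric.ball y ε := by simpa using hT (Set.mem_univ x)
    exact ⟨⟨y, hTfin.mem_toFinset.2 hy⟩, hxy⟩
  choose net hnet using hnet
  set m : ℕ := Fintype.card hTfin.toFinset with hm
  obtain ⟨L, hL0, hL⟩ : ∃ L : ℝ, 0 ≤ L ∧ m * Real.exp (-L) ≤ a / 2 := by
    refine ⟨2 * m / a, by positivity, ?_⟩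
    have h1 := Real.add_one_le_exp (2 * m / a)
    rw [Real.exp_neg, ← div_eq_mul_inv, div_le_iff₀ (Real.exp_pos _)]
    have h2 : a / 2 * (2 * m / a) = m := by field_simp
    nlinarith
  obtain ⟨K, hK1, hK⟩ : ∃ K : ℕ, 1 ≤ K ∧ 4 * L ≤ a * K := by
    refine ⟨⌈4 * L / a⌉₊ + 1, by omega, ?_⟩
    have h1 := Nat.le_ceil (4 * L / a)
    rw [div_le_iff₀ ha] at h1
    push_cast
    nlinarith
  have hKpos : (0 : ℝ) < K := by exact_mod_cast hK1
  set η : ℝ := ε / K with hη
  have hηpos : 0 < η := by positivity
  obtain ⟨J, hJ⟩ := enBad_bound f hf h hηpos K hK1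
  refine ⟨m * Real.exp (L * (K * J)), fun n => ?_⟩
  let mark : X → ℕ → Prop := fun x i => K ∣ i + 1 ∨ η ≤ dist (f^[i] x) (f^[i + 1] x)
  let code : X → hTfin.toFinset × (Fin n → Option hTfin.toFinset) := fun x =>
    (net x, fun i => if mark x i then some (net (f^[i + 1] x)) else none)
  have hclose : ∀ x y, code x = code y → ∀ i ≤ n,
      dist (f^[i] x) (f^[i] y) ≤ 2 * ε + 2 * ((i % K : ℕ) : ℝ) * η := by
    intro x y hxy i
    have hnn : ∀ u v : X, net u = net v → dist u v ≤ 2 * ε := by
      intro u v huv
      have h1 := hnet u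
      have h2 := hnet v
      rw [huv] at h1
      linarith [dist_triangle_right u v (net v)]
    induction i with
    | zero =>
      intro _
      simpa using hnn x y (congrArg Prod.fst hxy)
    | succ i ih =>
      intro hi
      have h1 := congrFun (congrArg Prod.snd hxy) ⟨i, hi⟩
      simp only [code] at h1
      by_cases hx : mark x i
      · by_cases hy : mark y i
        · rw [if_pos hx, if_pos hy] at h1
          have := hnn _ _ (Option.some.inj h1)
          have h0 : (0 : ℝ) ≤ 2 * (((i + 1) % K : ℕ) : ℝ) * η := by positivity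
          linarith
        · rw [if_pos hx, if_neg hy] at h1
          cases h1
      · by_cases hy : mark y i
        · rw [if_neg hx, if_pos hy] at h1
          cases h1
        · simp only [mark, not_or, not_le] at hx hy
          have h2 : (i + 1) % K = i % K + 1 := by
            have h3 := Nat.add_mod_of_add_mod_lt (a := i) (b := 1) (c := K)
            rcases Nat.lt_or_ge 1 K with hK2 | hK2
            · rw [Nat.mod_eq_of_lt hK2] at h3
              refine h3 ?_
              have h4 : i % K < K := Nat.mod_lt _ (by omega)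
              by_contra hcon
              apply hx.1
              refine ⟨i / K + 1, ?_⟩
              have := Nat.div_add_mod i K
              rw [mul_add, mul_one]
              omega
            · exact absurd (by rw [show K = 1 by omega]; exact one_dvd _) hx.1
          have h3 := ih (by omega)
          rw [h2]
          push_cast
          have h4 := dist_triangle4 (f^[i + 1] x) (f^[i] x) (f^[i] y) (f^[i + 1] y)
          rw [dist_comm (f^[i + 1] x) (f^[i] x)] at h4
          linarith [hx.2, hy.2]
  let r : ℝ := 2 * n / K + K * J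
  let C : Finset (hTfin.toFinset × (Fin n → Option hTfin.toFinset)) :=
    univ ×ˢ (univ.filter
      (fun c => (((univ : Finset (Fin n)).filter (fun i => c i ≠ none)).card : ℝ) ≤ r))
  have hcodeC : ∀ x, code x ∈ C := by
    intro x
    refine mem_product.2 ⟨mem_univ _, mem_filter.2 ⟨mem_univ _, ?_⟩⟩
    have h1 : ((univ : Finset (Fin n)).filter (fun i => (code x).2 i ≠ none)).card ≤
        n / K + enBad f η x n := by
      rw [← Nat.card_multiples n K]
      unfold enBad
      refine le_trans ?_ (card_union_le _ _)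
      refine card_le_card_of_injOn (fun i => (i : ℕ)) ?_ fun i _ j _ hij => Fin.ext hij
      intro i hi
      simp only [coe_filter, mem_univ, true_and, Set.mem_ofPred_eq, code] at hi
      have hm : mark x i := by
        by_contra hcon
        exact hi (if_neg hcon)
      simp only [coe_union, coe_filter, mem_range, Set.mem_union, Set.mem_ofPred_eq]
      rcases hm with hm | hm
      · exact Or.inl ⟨i.2, hm⟩
      · exact Or.inr ⟨i.2, hm⟩
    have h2 : (K : ℝ) * enBad f η x n ≤ n + K * (K * J) := by exact_mod_cast hJ n x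
    have h3 : (enBad f η x n : ℝ) ≤ n / K + K * J := by
      rw [div_add' _ _ _ hKpos.ne', le_div_iff₀ hKpos]
      linarith
    have h4 : ((n / K : ℕ) : ℝ) ≤ n / K := Nat.cast_div_le
    have h5 : ((((univ : Finset (Fin n)).filter (fun i => (code x).2 i ≠ none)).card : ℕ) : ℝ) ≤
        ((n / K : ℕ) : ℝ) + enBad f η x n := by exact_mod_cast h1
    have h6 : r = n / K + (n / K + K * J) := by
      simp only [r]
      ring
    linarith
  let C' := C.filter (fun c => ∃ x, code x = c)
  have hrep : ∀ c : C', ∃ x, code x = c := fun c => (mem_filter.1 c.2).2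
  choose rep hrep using hrep
  refine ⟨univ.image rep, ?_, ?_⟩
  · intro x _
    let c : C' := ⟨code x, mem_filter.2 ⟨hcodeC x, x, rfl⟩⟩
    refine ⟨rep c, by simp, ?_⟩
    rw [Dynamics.mem_dynEntourage]
    intro k hk
    have h1 := hclose x (rep c) (hrep c).symm k hk.le
    have h2 : ((k % K : ℕ) : ℝ) ≤ K := by exact_mod_cast (Nat.mod_lt k (by omega)).le
    have h3 : K * η = ε := by rw [hη]; field_simp
    have h4 := mul_le_mul_of_nonneg_right h2 hηpos.le
    change dist _ _ < 5 * ε
    linarith
  · have h1 : (univ.image rep).card ≤ C.card := by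
      refine card_image_le.trans ?_
      rw [card_univ, Fintype.card_coe]
      exact card_filter_le _ _
    have h2 : ((univ.image rep).card : ℝ) ≤ C.card := by exact_mod_cast h1
    refine h2.trans ?_
    simp only [C, card_product, card_univ]
    push_cast
    rw [← hm, mul_assoc]
    refine mul_le_mul_of_nonneg_left ((en_count_codes _ n L r hL0).trans ?_) (Nat.cast_nonneg _)
    rw [← hm]
    have h3 : (1 + m * Real.exp (-L)) ^ n ≤ Real.exp (a / 2 * n) := by
      rw [mul_comm (a / 2), Real.exp_nat_mul]
      refine pow_le_pow_left₀ (by positivity) ?_ n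
      linarith [Real.add_one_le_exp (a / 2)]
    refine (mul_le_mul_of_nonneg_left h3 (Real.exp_pos _).le).trans ?_
    rw [← Real.exp_add, ← Real.exp_add]
    refine Real.exp_le_exp.2 ?_
    have h4 : L * (2 * n / K) ≤ a / 2 * n := by
      rw [mul_div_assoc', div_le_iff₀ hKpos]
      have := mul_le_mul_of_nonneg_right hK (Nat.cast_nonneg (α := ℝ) n)
      nlinarith
    simp only [r]
    linarith

end Dyn

theorem coverEntropy_eq_zero_of_tendsto_dist {X : Type*} [MetricSpace X] [CompactSpace X]
    [Nonempty X] (f : X → X) (hf : Continuous f)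
    (h : ∀ x, Tendsto (fun n : ℕ => dist (f^[n] x) (f^[n + 1] x)) atTop (𝓝 0)) :
    Dynamics.coverEntropy f Set.univ = 0 := by
  refine le_antisymm ?_ (Dynamics.coverEntropy_nonneg f Set.univ_nonempty)
  rw [Dynamics.coverEntropy_eq_iSup_basis Metric.uniformity_basis_dist]
  refine iSup₂_le fun ε hε => ?_
  refine EReal.le_of_forall_lt_iff_le.1 fun a ha => ?_
  have ha' : 0 < a := by exact_mod_cast ha
  obtain ⟨B, hB⟩ := en_exists_cover f hf h (ε := ε / 5) (by positivity) ha'
  rw [← ExpGrowth.expGrowthSup_exp (a := (a : EReal))]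
  refine ExpGrowth.expGrowthSup_le_of_eventually_le (b := ENNReal.ofReal B)
    ENNReal.ofReal_ne_top (Eventually.of_forall fun n => ?_)
  obtain ⟨s, hs1, hs2⟩ := hB n
  rw [show 5 * (ε / 5) = ε by ring] at hs1
  have h1 := hs1.coverMincard_le_card
  have h2 : ((Dynamics.coverMincard f Set.univ {p : X × X | dist p.1 p.2 < ε} n : ℕ∞) : ENNReal) ≤
      (s.card : ENNReal) := by exact_mod_cast h1
  refine h2.trans ?_
  have h3 : ((a : EReal) * (n : EReal)) = ((a * n : ℝ) : EReal) := by
    rw [EReal.coe_mul]
    rfl
  rw [h3, EReal.exp_coe, mul_comm, ← ENNReal.ofReal_mul (Real.exp_pos _).le, mul_comm,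
    ← ENNReal.ofReal_natCast]
  exact ENNReal.ofReal_le_ofReal hs2

end Crest.Agent.R123
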