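import Crest.Agent.R123.Simplex

/-!
# Row 123 (S0163): from chain-level data to Mathlib's singular homology
-/

noncomputable section

open CategoryTheory Limits Simplicial

namespace Crest.Agent.R123

/-- The coefficient module. -/
abbrev RR : ModuleCat.{0} ℝ := ModuleCat.of ℝ ℝ

/-- The singular simplicial set. -/
abbrev Sing (X : Type) [TopologicalSpace X] : SSet.{0} := TopCat.toSSet.obj (TopCat.of X)

/-- A continuous map from the topological simplex as a simplex of the singular simplicial set. -/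
def smp {X : Type} [TopologicalSpace X] {n : ℕ} (σ : C(Sx n, X)) : (Sing X) _⦋n⦌ :=
  (TopCat.toSSetObjEquiv (TopCat.of X) (.op ⦋n⦌)).symm σ

lemma smp_surj {X : Type} [TopologicalSpace X] {n : ℕ} (x : (Sing X) _⦋n⦌) :
    ∃ σ : C(Sx n, X), smp σ = x :=
  (TopCat.toSSetObjEquiv (TopCat.of X) (.op ⦋n⦌)).symm.surjective x

lemma δ_smp {X : Type} [TopologicalSpace X] {n : ℕ} (σ : C(Sx (n + 1), X)) (i : Fin (n + 2)) :
    (Sing X).δ i (smp σ) = smp (σ.comp (face n i)) := rfl

lemma map_smp {X Y : Type} [TopologicalSpace X] [TopologicalSpace Y] (g : C(X, Y)) {n : ℕ}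
    (σ : C(Sx n, X)) :
    (TopCat.toSSet.map (TopCat.ofHom g)).app _ (smp σ) = smp (g.comp σ) := rfl

/-- The chain given by one singular simplex. -/
abbrev ch {X : Type} [TopologicalSpace X] {n : ℕ} (σ : C(Sx n, X)) :
    RR ⟶ ((Sing X).chainComplex RR).X n := (Sing X).ιChainComplex (smp σ)

lemma ch_d {X : Type} [TopologicalSpace X] {n : ℕ} (σ : C(Sx (n + 1), X)) :
    ch σ ≫ ((Sing X).chainComplex RR).d (n + 1) n =
      ∑ i : Fin (n + 2), (-1) ^ i.val • ch (σ.comp (face n i)) :=
  SSet.ιChainComplex_d _ _ _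

/-- The linear functional on chains given by a function on simplices. -/
def fnl {X : Type} [TopologicalSpace X] {n : ℕ} (w : C(Sx n, X) → ℝ) :
    ((Sing X).chainComplex RR).X n ⟶ RR :=
  Cofan.IsColimit.desc ((Sing X).isColimitChainComplexXCofan RR n)
    (fun x => w (TopCat.toSSetObjEquiv (TopCat.of X) (.op ⦋n⦌) x) • 𝟙 RR)

lemma ch_fnl {X : Type} [TopologicalSpace X] {n : ℕ} (w : C(Sx n, X) → ℝ) (σ : C(Sx n, X)) :
    ch σ ≫ fnl w = w σ • 𝟙 RR := by
  have := Cofan.IsColimit.fac ((Sing X).isColimitChainComplexXCofan RR n)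
    (fun x => w (TopCat.toSSetObjEquiv (TopCat.of X) (.op ⦋n⦌) x) • 𝟙 RR) (smp σ)
  rw [smp, Equiv.apply_symm_apply] at this
  exact this

theorem hasEigenvalue_of_chainData {X : Type} [TopologicalSpace X] {g : C(X, X)}
    {σp σm : C(Sx 2, X)} {τp τm : C(Sx 3, X)} {w : C(Sx 2, X) → ℝ}
    (h : ChainData g σp σm τp τm w) : Module.End.HasEigenvalue (H2map g) (2 : ℝ) := by
  let K := (Sing X).chainComplex RR
  let φ : K ⟶ K := SSet.chainComplexMap (TopCat.toSSet.map (TopCat.ofHom g)) RR
  let z : RR ⟶ K.X 2 := ch σp - ch σm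
  have hn : (ComplexShape.down ℕ).next 2 = 1 := by simp
  have hp : (ComplexShape.down ℕ).prev 2 = 3 := by simp
  have hz : z ≫ K.d 2 1 = 0 := by
    simp only [z, K, Preadditive.sub_comp]
    rw [ch_d σp, ch_d σm, Fin.sum_univ_three, Fin.sum_univ_three, h.s0, h.sp, h.sm]
    simp
  have hφ : ∀ σ : C(Sx 2, X), ch σ ≫ φ.f 2 = ch (g.comp σ) := fun σ =>
    SSet.ι_chainComplexMap_f _ _ _ _ _
  have hω : K.d 3 2 ≫ fnl w = 0 := by
    apply SSet.chainComplex_hom_ext
    intro x
    obtain ⟨τ, rfl⟩ := smp_surj x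
    rw [comp_zero, ← Category.assoc]
    erw [ch_d τ]
    rw [Preadditive.sum_comp]
    simp only [Preadditive.zsmul_comp, ch_fnl]
    have := h.cocycle τ
    rw [Fin.sum_univ_four] at this ⊢
    simp only [Fin.isValue, Fin.val_zero, pow_zero, one_mul, Fin.val_one, pow_one, neg_mul,
      Fin.val_two, even_two, Even.neg_pow, one_pow, one_smul, neg_smul] at this ⊢
    have h3 : ((3 : Fin 4) : ℕ) = 3 := rfl
    rw [h3] at this ⊢
    rw [show ((-1 : ℤ) ^ 3) = -1 by norm_num, neg_smul, one_smul, ← neg_smul, ← neg_smul,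
      ← add_smul, ← add_smul, ← add_smul]
    rw [show ((-1 : ℝ) ^ 3) = -1 by norm_num] at this
    convert zero_smul ℝ (𝟙 RR) using 2
    linarith
  let c : RR ⟶ K.homology 2 := K.liftCycles z 1 hn hz ≫ K.homologyπ 2
  have hc : c ≫ K.homologyι 2 ≫ K.descOpcycles (fnl w) 3 hp hω = (w σp - w σm) • 𝟙 RR := by
    simp only [c, Category.assoc, HomologicalComplex.homology_π_ι_assoc,
      HomologicalComplex.p_descOpcycles, HomologicalComplex.liftCycles_i_assoc, z,
      Preadditive.sub_comp]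
    erw [ch_fnl, ch_fnl]
    rw [sub_smul]
  have hb : z ≫ φ.f 2 - (2 : ℝ) • z = (ch τp - ch τm) ≫ K.d 3 2 := by
    simp only [z, K, Preadditive.sub_comp]
    rw [ch_d τp, ch_d τm, Fin.sum_univ_four, Fin.sum_univ_four, h.t0, h.tp1, h.tp2, h.tp3,
      h.tm1, h.tm2, h.tm3]
    erw [hφ, hφ]
    have h3 : ((3 : Fin 4) : ℕ) = 3 := rfl
    simp only [Fin.isValue, Fin.val_zero, pow_zero, Fin.val_one, pow_one,
      Fin.val_two, even_two, Even.neg_pow, one_pow, one_smul, neg_smul, h3,
      show ((-1 : ℤ) ^ 3) = -1 by norm_num, two_smul]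
    abel
  have hcφ : c ≫ HomologicalComplex.homologyMap φ 2 = (2 : ℝ) • c := by
    have h0 := K.liftCycles_homologyπ_eq_zero_of_boundary _ 1 hn _ hb
    simp only [c, Category.assoc, HomologicalComplex.homologyπ_naturality]
    rw [← Category.assoc, HomologicalComplex.liftCycles_comp_cyclesMap, ← sub_eq_zero,
      ← Linear.smul_comp, ← Preadditive.sub_comp, ← h0]
    congr 1
    rw [← cancel_mono (K.iCycles 2)]
    simp
  have hv : c.hom 1 ≠ 0 := by
    intro h0
    have h1 := congrArg (fun f : RR ⟶ RR => f.hom 1) hc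
    simp only [ModuleCat.hom_comp, LinearMap.comp_apply, h0, map_zero, ModuleCat.hom_smul,
      ModuleCat.hom_id, LinearMap.smul_apply, LinearMap.id_apply, smul_eq_mul, mul_one] at h1
    exact h.ne (by linarith)
  refine Module.End.hasEigenvalue_of_hasEigenvector (x := c.hom 1) ⟨?_, hv⟩
  rw [Module.End.mem_eigenspace_iff]
  exact congrArg (fun f : RR ⟶ K.homology 2 => f.hom 1) hcφ

lemma H2map_comp {X Y Z : Type} [TopologicalSpace X] [TopologicalSpace Y] [TopologicalSpace Z]
    (f : C(X, Y)) (g : C(Y, Z)) : H2map (g.comp f) = (H2map g).comp (H2map f) := by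
  unfold H2map
  rw [TopCat.ofHom_comp, Functor.map_comp]
  rfl

lemma H2map_id {X : Type} [TopologicalSpace X] : H2map (ContinuousMap.id X) = LinearMap.id := by
  unfold H2map
  rw [TopCat.ofHom_id, CategoryTheory.Functor.map_id]
  rfl

lemma H2map_homotopic {X Y : Type} [TopologicalSpace X] [TopologicalSpace Y] {f g : C(X, Y)}
    (H : f.Homotopic g) : H2map f = H2map g := by
  obtain ⟨H⟩ := H
  have := TopCat.Homotopy.congr_homologyMap_singularChainComplexFunctor
    (f := TopCat.ofHom f) (g := TopCat.ofHom g) H RR 2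
  exact congrArg ModuleCat.Hom.hom this

theorem hasEigenvalue_transfer {X M : Type} [TopologicalSpace X] [TopologicalSpace M]
    (g : C(X, X)) (j : C(X, M)) (p : C(M, X)) (hpj : p.comp j = ContinuousMap.id X) (f : C(M, M))
    (H : (f.comp j).Homotopic (j.comp g)) (hg : Module.End.HasEigenvalue (H2map g) (2 : ℝ)) :
    Module.End.HasEigenvalue (H2map f) (2 : ℝ) := by
  obtain ⟨v, hv, hv0⟩ := hg.exists_hasEigenvector
  rw [Module.End.mem_eigenspace_iff] at hv
  refine Module.End.hasEigenvalue_of_hasEigenvector (x := H2map j v) ⟨?_, fun h0 => hv0 ?_⟩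
  · rw [Module.End.mem_eigenspace_iff]
    have h1 := LinearMap.congr_fun (H2map_homotopic H) v
    rw [H2map_comp, H2map_comp, LinearMap.comp_apply, LinearMap.comp_apply] at h1
    exact h1.trans (by rw [hv, map_smul])
  · have h1 := LinearMap.congr_fun (H2map_comp j p) v
    rw [hpj, H2map_id, LinearMap.comp_apply, h0, map_zero] at h1
    exact h1

end Crest.Agent.R123
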