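import Crest.Agent.R123.Wind

/-!
# Row 123 (S0163): the tautological line bundle on the sphere and its Euler cocycle
-/

noncomputable section

open scoped ComplexConjugate

namespace Crest.Agent.R123

/-- The vector `v` lies on the complex line given by the point `x` of the Riemann sphere. -/
def Over (x : S2) (v : ℂ × ℂ) : Prop :=
  conj x.z * v.2 = (1 + x.s) * v.1 ∧ x.z * v.1 = (1 - x.s) * v.2

lemma S2.mul_conj (x : S2) : x.z * conj x.z = 1 - (x.s : ℂ) ^ 2 := by
  rw [Complex.mul_conj, Complex.normSq_eq_norm_sq]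
  have : ‖x.z‖ ^ 2 = 1 - x.s ^ 2 := by linarith [x.norm_sq_add]
  rw [this]; push_cast; ring

/-- Twice the orthogonal projection onto the line given by `x`. -/
def proj (x : S2) (v : ℂ × ℂ) : ℂ × ℂ :=
  ((1 - x.s) * v.1 + conj x.z * v.2, x.z * v.1 + (1 + x.s) * v.2)

lemma over_proj (x : S2) (v : ℂ × ℂ) : Over x (proj x v) := by
  have h := x.mul_conj
  constructor
  · simp only [proj]; linear_combination v.1 * h
  · simp only [proj]; linear_combination v.2 * h

lemma dist_coord {x y : S2} (h : dist x y < 1) : ‖x.z - y.z‖ < 1 ∧ |x.s - y.s| < 1 := by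
  have h1 : dist x y ^ 2 = ‖x.z - y.z‖ ^ 2 + (x.s - y.s) ^ 2 := by
    rw [Subtype.dist_eq, dist_eq_norm, norm_sq_E3]; rfl
  have h2 : dist x y ^ 2 < 1 := by nlinarith [dist_nonneg (x := x) (y := y)]
  constructor
  · nlinarith [norm_nonneg (x.z - y.z), sq_nonneg (x.s - y.s)]
  · rw [abs_lt]; constructor <;> nlinarith [sq_nonneg ‖x.z - y.z‖]

lemma proj_ne_zero {x y : S2} {v : ℂ × ℂ} (hv : Over x v) (h0 : v ≠ 0) (h : dist x y < 1) :
    proj y v ≠ 0 := by
  obtain ⟨hz, hs⟩ := dist_coord h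
  intro hp
  have e1 : 2 * v.1 = ((y.s - x.s : ℝ) : ℂ) * v.1 + conj (x.z - y.z) * v.2 := by
    have := congrArg Prod.fst hp
    simp only [proj, Prod.fst_zero] at this
    rw [map_sub]; push_cast
    linear_combination this - hv.1
  have e2 : 2 * v.2 = (x.z - y.z) * v.1 + ((x.s - y.s : ℝ) : ℂ) * v.2 := by
    have := congrArg Prod.snd hp
    simp only [proj, Prod.snd_zero] at this
    push_cast
    linear_combination this - hv.2
  have n1 : 2 * ‖v.1‖ ≤ |x.s - y.s| * ‖v.1‖ + ‖x.z - y.z‖ * ‖v.2‖ := by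
    have := norm_add_le (((y.s - x.s : ℝ) : ℂ) * v.1) (conj (x.z - y.z) * v.2)
    rw [← e1, norm_mul, norm_mul, norm_mul, Complex.norm_real, Real.norm_eq_abs, abs_sub_comm,
      Complex.norm_conj, Complex.norm_two] at this
    exact this
  have n2 : 2 * ‖v.2‖ ≤ ‖x.z - y.z‖ * ‖v.1‖ + |x.s - y.s| * ‖v.2‖ := by
    have := norm_add_le ((x.z - y.z) * v.1) (((x.s - y.s : ℝ) : ℂ) * v.2)
    rw [← e2, norm_mul, norm_mul, norm_mul, Complex.norm_real, Real.norm_eq_abs,
      Complex.norm_two] at this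
    exact this
  have hpos : 0 < ‖v.1‖ + ‖v.2‖ := by
    by_contra hle
    have a1 : ‖v.1‖ = 0 := by linarith [norm_nonneg v.1, norm_nonneg v.2]
    have a2 : ‖v.2‖ = 0 := by linarith [norm_nonneg v.1, norm_nonneg v.2]
    exact h0 (Prod.ext (norm_eq_zero.1 a1) (norm_eq_zero.1 a2))
  nlinarith

/-- A nowhere vanishing section of the line bundle along `σ`. -/
def IsLift {K : Type} [TopologicalSpace K] (σ : C(K, S2)) (v : C(K, ℂ × ℂ)) : Prop :=
  ∀ t, v t ≠ 0 ∧ Over (σ t) (v t)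

lemma IsLift.comp {K K' : Type} [TopologicalSpace K] [TopologicalSpace K'] {σ : C(K, S2)}
    {v : C(K, ℂ × ℂ)} (h : IsLift σ v) (e : C(K', K)) : IsLift (σ.comp e) (v.comp e) :=
  fun t => h (e t)

lemma exists_lift_of_dist {K : Type} [TopologicalSpace K] [CompactSpace K] {σ σ' : C(K, S2)}
    (h : ∃ v, IsLift σ v) (hd : dist σ σ' < 1) : ∃ v, IsLift σ' v := by
  obtain ⟨v, hv⟩ := h
  refine ⟨⟨fun t => proj (σ' t) (v t), ?_⟩, fun t => ⟨?_, over_proj _ _⟩⟩
  · unfold proj; fun_prop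
  · exact proj_ne_zero (hv t).2 (hv t).1 ((ContinuousMap.dist_apply_le_dist t).trans_lt hd)

lemma exists_over (x : S2) : ∃ v : ℂ × ℂ, v ≠ 0 ∧ Over x v := by
  by_cases h : proj x (1, 0) = 0
  · refine ⟨proj x (0, 1), fun h' => ?_, over_proj _ _⟩
    have h1 := congrArg Prod.fst h
    have h2 := congrArg Prod.snd h'
    simp only [proj, Prod.fst_zero, Prod.snd_zero] at h1 h2
    have : (2 : ℂ) = 0 := by linear_combination h1 + h2
    norm_num at this
  · exact ⟨_, h, over_proj _ _⟩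

theorem exists_lift {K : Type} [TopologicalSpace K] [CompactSpace K] [ContractibleSpace K]
    (σ : C(K, S2)) : ∃ v, IsLift σ v := by
  obtain ⟨y, ⟨H⟩⟩ := id_nullhomotopic K
  let G := ((ContinuousMap.Homotopy.refl σ).comp H).curry
  let A : Set C(K, S2) := {σ | ∃ v, IsLift σ v}
  have hA : IsClopen A := by
    constructor
    · rw [← isOpen_compl_iff, Metric.isOpen_iff]
      exact fun σ hσ => ⟨1, one_pos, fun σ' hσ' h' => hσ (exists_lift_of_dist h' hσ')⟩
    · rw [Metric.isOpen_iff]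
      exact fun σ hσ => ⟨1, one_pos, fun σ' hσ' =>
        exists_lift_of_dist hσ (by rw [dist_comm]; exact hσ')⟩
  have h1 : G 1 ∈ A := by
    obtain ⟨v, hv⟩ := exists_over (σ y)
    refine ⟨ContinuousMap.const _ v, fun t => ?_⟩
    have : G 1 t = σ y := by simp [G]
    rw [this]; exact hv
  have h2 := (hA.preimage G.continuous).eq_univ ⟨1, h1⟩
  have h3 : G 0 ∈ A := by
    have : (0 : unitInterval) ∈ G ⁻¹' A := by rw [h2]; trivial
    exact this
  have h4 : G 0 = σ := by ext1 t; simp [G]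
  rwa [h4] at h3

/-- The Hermitian product on `ℂ²`. -/
def herm (v w : ℂ × ℂ) : ℂ := conj v.1 * w.1 + conj v.2 * w.2

lemma Over.det {x : S2} {v w : ℂ × ℂ} (hv : Over x v) (hw : Over x w) : v.1 * w.2 = w.1 * v.2 := by
  linear_combination (-1 / 2 : ℂ) * (w.2 * hv.1 - v.2 * hw.1) + (-1 / 2 : ℂ) * (v.1 * hw.2 - w.1 * hv.2)

lemma herm_mul {x : S2} (u : ℂ × ℂ) {v w : ℂ × ℂ} (hv : Over x v) (hw : Over x w) :
    herm u v * herm v w = herm u w * herm v v := by
  have h := hv.det hw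
  unfold herm
  linear_combination (conj u.1 * conj v.2 - conj u.2 * conj v.1) * h

lemma herm_self (v : ℂ × ℂ) : herm v v = ((‖v.1‖ ^ 2 + ‖v.2‖ ^ 2 : ℝ) : ℂ) := by
  unfold herm
  rw [Complex.conj_mul', Complex.conj_mul']; push_cast; ring

lemma normSq_pos {v : ℂ × ℂ} (h : v ≠ 0) : 0 < ‖v.1‖ ^ 2 + ‖v.2‖ ^ 2 := by
  by_contra hle
  have a1 : ‖v.1‖ = 0 := by nlinarith [sq_nonneg ‖v.1‖, sq_nonneg ‖v.2‖]
  have a2 : ‖v.2‖ = 0 := by nlinarith [sq_nonneg ‖v.1‖, sq_nonneg ‖v.2‖]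
  exact h (Prod.ext (norm_eq_zero.1 a1) (norm_eq_zero.1 a2))

lemma herm_self_ne {v : ℂ × ℂ} (h : v ≠ 0) : herm v v ≠ 0 := by
  rw [herm_self]; exact_mod_cast (normSq_pos h).ne'

lemma herm_ne {x : S2} {v w : ℂ × ℂ} (hv : Over x v) (hw : Over x w) (hv0 : v ≠ 0) (hw0 : w ≠ 0) :
    herm v w ≠ 0 := by
  have h := herm_mul v hw hv
  intro h0
  rw [h0, zero_mul] at h
  exact mul_ne_zero (herm_self_ne hv0) (herm_self_ne hw0) h.symm

/-- The Hermitian product of two sections. -/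
def hermC {K : Type} [TopologicalSpace K] (v w : C(K, ℂ × ℂ)) : C(K, ℂ) :=
  ⟨fun t => herm (v t) (w t), by unfold herm; fun_prop⟩

lemma hermC_ne {K : Type} [TopologicalSpace K] {σ : C(K, S2)} {v w : C(K, ℂ × ℂ)}
    (hv : IsLift σ v) (hw : IsLift σ w) (t : K) : hermC v w t ≠ 0 :=
  herm_ne (hv t).2 (hw t).2 (hv t).1 (hw t).1

/-- The relative winding of two sections along an edge. -/
def WW (v w : C(Sx 1, ℂ × ℂ)) : ℝ := wind (hermC v w)

lemma WW_add {σ : C(Sx 1, S2)} {u v w : C(Sx 1, ℂ × ℂ)} (hu : IsLift σ u) (hv : IsLift σ v)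
    (hw : IsLift σ w) : WW u v + WW v w = WW u w := by
  have h1 : hermC u v * hermC v w = hermC u w * hermC v v := by
    ext1 t; exact herm_mul _ (hv t).2 (hw t).2
  have h2 : wind (hermC v v) = 0 :=
    wind_pos (r := fun t => ‖(v t).1‖ ^ 2 + ‖(v t).2‖ ^ 2) (by fun_prop)
      (fun t => normSq_pos (hv t).1) (fun t => herm_self _)
  unfold WW
  rw [← wind_mul (hermC_ne hu hv) (hermC_ne hv hw), h1,
    wind_mul (hermC_ne hu hw) (hermC_ne hv hv), h2, add_zero]

/-- A chosen section along a simplex. -/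
def lft {n : ℕ} (σ : C(Sx n, S2)) : C(Sx n, ℂ × ℂ) := (exists_lift σ).choose

lemma lft_spec {n : ℕ} (σ : C(Sx n, S2)) : IsLift σ (lft σ) := (exists_lift σ).choose_spec

/-- The contribution of an edge `e` of a simplex `σ` with section `v`. -/
def edgeW {n : ℕ} (σ : C(Sx n, S2)) (v : C(Sx n, ℂ × ℂ)) (e : C(Sx 1, Sx n)) : ℝ :=
  WW (lft (σ.comp e)) (v.comp e)

/-- The Euler cocycle. -/
def euler (σ : C(Sx 2, S2)) : ℝ :=
  edgeW σ (lft σ) (face 1 0) - edgeW σ (lft σ) (face 1 1) + edgeW σ (lft σ) (face 1 2)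

lemma euler_eq {σ : C(Sx 2, S2)} {v : C(Sx 2, ℂ × ℂ)} (hv : IsLift σ v) :
    euler σ = edgeW σ v (face 1 0) - edgeW σ v (face 1 1) + edgeW σ v (face 1 2) := by
  have key : ∀ i, edgeW σ (lft σ) (face 1 i) =
      edgeW σ v (face 1 i) + wind ((hermC v (lft σ)).comp (face 1 i)) := fun i =>
    (WW_add (lft_spec _) (hv.comp _) ((lft_spec σ).comp _)).symm
  have := wind_boundary (hermC_ne hv (lft_spec σ))
  rw [euler, key, key, key]
  linarith

theorem euler_cocycle (τ : C(Sx 3, S2)) :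
    ∑ i : Fin 4, (-1 : ℝ) ^ (i : ℕ) * euler (τ.comp (face 2 i)) = 0 := by
  have key : ∀ i, euler (τ.comp (face 2 i)) =
      edgeW τ (lft τ) ((face 2 i).comp (face 1 0)) - edgeW τ (lft τ) ((face 2 i).comp (face 1 1)) +
        edgeW τ (lft τ) ((face 2 i).comp (face 1 2)) := fun i => by
    rw [euler_eq ((lft_spec τ).comp (face 2 i))]
    simp only [edgeW, ContinuousMap.comp_assoc]
  have e1 : (face 2 0).comp (face 1 0) = (face 2 1).comp (face 1 0) := face_comp_face (by decide)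
  have e2 : (face 2 0).comp (face 1 1) = (face 2 2).comp (face 1 0) := face_comp_face (by decide)
  have e3 : (face 2 0).comp (face 1 2) = (face 2 3).comp (face 1 0) := face_comp_face (by decide)
  have e4 : (face 2 1).comp (face 1 1) = (face 2 2).comp (face 1 1) := face_comp_face (by decide)
  have e5 : (face 2 1).comp (face 1 2) = (face 2 3).comp (face 1 1) := face_comp_face (by decide)
  have e6 : (face 2 2).comp (face 1 2) = (face 2 3).comp (face 1 2) := face_comp_face (by decide)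
  rw [Fin.sum_univ_four, key, key, key, key, e1, e2, e3, e4, e5, e6]
  have h3 : ((3 : Fin 4) : ℕ) = 3 := rfl
  simp only [Fin.isValue, Fin.val_zero, Fin.val_one, Fin.val_two, h3]
  ring

end Crest.Agent.R123
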