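import Crest.Agent.R123.Pred

/-!
# Row 123 (S0163): the map `F` on `S² × S¹ × S² × S²`
-/

noncomputable section

open scoped Real ComplexConjugate

namespace Crest.Agent.R123

/-! ### The sphere component: `u ↦ u ^ 2 + W` -/

/-- The extra term produced by the translation by `W`. -/
def mobA (z : ℂ) (s : ℝ) (W : ℂ) : ℝ := 2 * (z ^ 2 * conj W).re + ‖W‖ ^ 2 * (1 - s) ^ 2

/-- The normalising denominator. -/
def mobN (z : ℂ) (s : ℝ) (W : ℂ) : ℝ := 2 + 2 * s ^ 2 + mobA z s W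

/-- The numerator of the complex coordinate. -/
def mobP (z : ℂ) (s : ℝ) (W : ℂ) : ℂ := z ^ 2 + ((1 - s) ^ 2 : ℝ) * W

lemma norm_sq_mobP {z : ℂ} {s : ℝ} (h : ‖z‖ ^ 2 + s ^ 2 = 1) (W : ℂ) :
    ‖mobP z s W‖ ^ 2 = (1 - s) ^ 2 * ((1 + s) ^ 2 + mobA z s W) := by
  have h1 : ‖mobP z s W‖ ^ 2 =
      (‖z‖ ^ 2) ^ 2 + (1 - s) ^ 2 * (2 * (z ^ 2 * conj W).re) + (1 - s) ^ 4 * ‖W‖ ^ 2 := by
    unfold mobP
    generalize (1 - s) = t
    rw [Complex.sq_norm, Complex.sq_norm, Complex.sq_norm]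
    simp only [Complex.normSq_apply, Complex.add_re, Complex.add_im,
      Complex.mul_re, Complex.mul_im, Complex.ofReal_re, Complex.ofReal_im, Complex.conj_re,
      Complex.conj_im, pow_two]
    ring
  have h2 : ‖z‖ ^ 2 = 1 - s ^ 2 := by linarith
  rw [h1, h2, mobA]
  ring

lemma mobN_pos {z : ℂ} {s : ℝ} (h : ‖z‖ ^ 2 + s ^ 2 = 1) (W : ℂ) : 0 < mobN z s W := by
  have h1 := norm_sq_mobP h W
  by_cases hs : s = 1
  · subst hs
    have hz : z = 0 := by
      have : ‖z‖ ^ 2 = 0 := by linarith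
      simpa using this
    simp only [mobN, mobA, hz]
    norm_num
  · have h2 : 0 < (1 - s) ^ 2 := by
      have : 1 - s ≠ 0 := fun h => hs (by linarith)
      positivity
    have h3 : 0 ≤ (1 + s) ^ 2 + mobA z s W := by
      by_contra hneg
      have := mul_neg_of_pos_of_neg h2 (not_le.1 hneg)
      nlinarith [sq_nonneg ‖mobP z s W‖]
    unfold mobN
    nlinarith

lemma mob_mem (x : S2) (W : ℂ) :
    ‖((2 / mobN x.z x.s W : ℝ) : ℂ) * mobP x.z x.s W‖ ^ 2 +
      ((4 * x.s + mobA x.z x.s W) / mobN x.z x.s W) ^ 2 = 1 := by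
  have h := x.norm_sq_add
  have hN := mobN_pos h W
  rw [norm_mul, mul_pow, norm_sq_mobP h, Complex.norm_real, Real.norm_eq_abs, sq_abs]
  field_simp
  unfold mobN
  ring

/-- The map `u ↦ u ^ 2 + W` of the Riemann sphere in the coordinates `(z, s)`. -/
def mob (x : S2) (W : ℂ) : S2 :=
  S2.mk (((2 / mobN x.z x.s W : ℝ) : ℂ) * mobP x.z x.s W)
    ((4 * x.s + mobA x.z x.s W) / mobN x.z x.s W) (mob_mem x W)

lemma mob_z (x : S2) (W : ℂ) :
    (mob x W).z = ((2 / mobN x.z x.s W : ℝ) : ℂ) * mobP x.z x.s W := rfl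

lemma mob_s (x : S2) (W : ℂ) :
    (mob x W).s = (4 * x.s + mobA x.z x.s W) / mobN x.z x.s W := rfl

lemma mob_zero (x : S2) : mob x 0 = sq x := by
  have hpos : (0 : ℝ) < 1 + x.s ^ 2 := by positivity
  apply S2.ext'
  · rw [mob_z, sq_z]
    have : ((1 + x.s ^ 2 : ℝ) : ℂ) ≠ 0 := by exact_mod_cast hpos.ne'
    have h2 : mobN x.z x.s 0 = 2 * (1 + x.s ^ 2) := by simp [mobN, mobA]; ring
    rw [h2, mobP, mul_zero, add_zero, Complex.ofReal_div, Complex.ofReal_mul]
    push_cast at this ⊢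
    field_simp
  · rw [mob_s, sq_s]
    have h2 : mobN x.z x.s 0 = 2 * (1 + x.s ^ 2) := by simp [mobN, mobA]; ring
    have h3 : mobA x.z x.s 0 = 0 := by simp [mobA]
    rw [h2, h3]
    field_simp
    ring

/-! ### The registers -/

lemma nrm_mem (V : ℂ) :
    ‖(((√(1 + ‖V‖ ^ 2))⁻¹ : ℝ) : ℂ) * V‖ ^ 2 + ((√(1 + ‖V‖ ^ 2))⁻¹) ^ 2 = 1 := by
  have h : (0 : ℝ) < 1 + ‖V‖ ^ 2 := by positivity
  rw [norm_mul, mul_pow, Complex.norm_real, Real.norm_eq_abs, sq_abs, inv_pow,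
    Real.sq_sqrt h.le]
  field_simp
  ring

/-- Central projection of the plane onto the upper hemisphere. -/
def nrm (V : ℂ) : S2 :=
  S2.mk ((((√(1 + ‖V‖ ^ 2))⁻¹ : ℝ) : ℂ) * V) ((√(1 + ‖V‖ ^ 2))⁻¹) (nrm_mem V)

lemma nrm_z (V : ℂ) : (nrm V).z = (((√(1 + ‖V‖ ^ 2))⁻¹ : ℝ) : ℂ) * V := rfl
lemma nrm_s (V : ℂ) : (nrm V).s = (√(1 + ‖V‖ ^ 2))⁻¹ := rfl

/-! ### The base circle -/

/-- The coordinate on the base circle, with values in `(-8, 8]`. -/
def ang (b : Circle) : ℝ := 8 / π * Complex.arg b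

lemma ang_le (b : Circle) : ang b ≤ 8 := by
  have h := Complex.arg_le_pi (b : ℂ)
  have hπ := Real.pi_pos
  unfold ang
  rw [div_mul_eq_mul_div, div_le_iff₀ hπ]
  linarith

lemma lt_ang (b : Circle) : -8 < ang b := by
  have h := Complex.neg_pi_lt_arg (b : ℂ)
  have hπ := Real.pi_pos
  unfold ang
  rw [div_mul_eq_mul_div, lt_div_iff₀ hπ]
  linarith

lemma ang_exp {t : ℝ} (h1 : -8 < t) (h2 : t ≤ 8) : ang (Circle.exp (π / 8 * t)) = t := by
  have hπ := Real.pi_pos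
  unfold ang
  rw [Circle.arg_exp (by nlinarith) (by nlinarith)]
  field_simp

lemma exp_ang (b : Circle) : Circle.exp (π / 8 * ang b) = b := by
  have hπ := Real.pi_pos
  have : π / 8 * ang b = Complex.arg b := by unfold ang; field_simp
  rw [this, Circle.exp_arg]

lemma mul_exp_eq (b : Circle) (t : ℝ) :
    b * Circle.exp (π / 8 * t) = Circle.exp (π / 8 * (ang b + t)) := by
  rw [mul_add, Circle.exp_add, exp_ang]

lemma ang_mul_exp_of_le (b : Circle) {t : ℝ} (ht : 0 ≤ t) (h : ang b + t ≤ 8) :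
    ang (b * Circle.exp (π / 8 * t)) = ang b + t := by
  rw [mul_exp_eq, ang_exp (by linarith [lt_ang b]) h]

lemma ang_mul_exp_of_gt (b : Circle) {t : ℝ} (ht : t ≤ 1) (h : 8 < ang b + t) :
    ang (b * Circle.exp (π / 8 * t)) = ang b + t - 16 := by
  rw [mul_exp_eq, ← Circle.exp_sub_two_pi]
  have : π / 8 * (ang b + t) - 2 * π = π / 8 * (ang b + t - 16) := by ring
  rw [this, ang_exp (by linarith) (by linarith [ang_le b])]

lemma ang_one : ang 1 = 0 := by simp [ang]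

/-! ### The map -/

/-- The manifold. -/
abbrev MM : Type := S2 × Circle × S2 × S2

/-- The sphere point of a state. -/
def MM.x (m : MM) : S2 := m.1
/-- The base coordinate of a state. -/
def MM.β (m : MM) : ℝ := ang m.2.1
/-- The two registers of a state. -/
def MM.reg (m : MM) (i : Bool) : S2 := if i then m.2.2.2 else m.2.2.1

/-- The expansion factor of the registers. -/
def lam : ℝ := 2 / cc

/-- What the registers add to the sphere component. -/
def outW (β : ℝ) (A B : ℂ) : ℂ := (4 * chi false β : ℝ) * A + (4 * chi true β : ℝ) * B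

/-- The new content of a register before saturation. -/
def inV (i : Bool) (β s : ℝ) (z Y : ℂ) : ℂ :=
  (lam * kil β : ℝ) * Y + (zet β : ℝ) * gen i ((β, s), z)

/-- `outW` at a state. -/
def MM.W (m : MM) : ℂ := outW m.β (m.reg false).z (m.reg true).z

/-- `inV` at a state. -/
def MM.V (m : MM) (i : Bool) : ℂ := inV i m.β m.x.s m.x.z (m.reg i).z

/-- The displacement of the base at a state. -/
def MM.st (m : MM) : ℝ := step m.β m.x.s

/-- The map. -/
def F (m : MM) : MM :=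
  (mob m.x m.W, m.2.1 * Circle.exp (π / 8 * m.st), nrm (m.V false), nrm (m.V true))

lemma F_x (m : MM) : (F m).x = mob m.x m.W := rfl
lemma F_b (m : MM) : (F m).2.1 = m.2.1 * Circle.exp (π / 8 * m.st) := rfl
lemma F_reg (m : MM) (i : Bool) : (F m).reg i = nrm (m.V i) := by cases i <;> rfl

end Crest.Agent.R123
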