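import Crest.Agent.R123.Defs

/-!
# Row 123 (S0163): cut-off functions, the prediction map and the generating series
-/

noncomputable section

open scoped NNReal

namespace Crest.Agent.R123

/-- A smooth bump on the line: `1` on `[c - r, c + r]`, `0` off `(c - R, c + R)`. -/
def bmp (c r R : ℝ) (h : 0 < r ∧ r < R) : ℝ → ℝ :=
  fun x => (⟨r, R, h.1, h.2⟩ : ContDiffBump c) x

section bmp
variable {c r R : ℝ} {h : 0 < r ∧ r < R} {x : ℝ}

lemma bmp_nonneg : 0 ≤ bmp c r R h x := ContDiffBump.nonneg _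
lemma bmp_le_one : bmp c r R h x ≤ 1 := ContDiffBump.le_one _

lemma bmp_eq_one (h1 : c - r ≤ x) (h2 : x ≤ c + r) : bmp c r R h x = 1 := by
  apply ContDiffBump.one_of_mem_closedBall
  rw [Metric.mem_closedBall, Real.dist_eq, abs_le]
  constructor <;> simp only <;> linarith

lemma bmp_eq_zero_of_le (h1 : x ≤ c - R) : bmp c r R h x = 0 := by
  apply ContDiffBump.zero_of_le_dist
  rw [Real.dist_eq, le_abs]
  right; simp only; linarith

lemma bmp_eq_zero_of_ge (h1 : c + R ≤ x) : bmp c r R h x = 0 := by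
  apply ContDiffBump.zero_of_le_dist
  rw [Real.dist_eq, le_abs]
  left; simp only; linarith

lemma bmp_contDiff : ContDiff ℝ 1 (bmp c r R h) := ContDiffBump.contDiff _

lemma bmp_hasCompactSupport : HasCompactSupport (bmp c r R h) :=
  ContDiffBump.hasCompactSupport _

lemma bmp_lipschitz : ∃ K : ℝ≥0, LipschitzWith K (bmp c r R h) :=
  ContDiff.lipschitzWith_of_hasCompactSupport bmp_hasCompactSupport bmp_contDiff (by simp)

lemma abs_bmp_le_one : |bmp c r R h x| ≤ 1 := by
  rw [abs_of_nonneg bmp_nonneg]; exact bmp_le_one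

end bmp

/-- The stall window. -/
def psi : ℝ → ℝ := bmp 0 (1 / 2) 1 (by norm_num)
/-- The drive, a function of the height on the sphere. -/
def drv : ℝ → ℝ := bmp 0 (1 / 4) (1 / 2) (by norm_num)
/-- The factor that clears the registers. -/
def kil : ℝ → ℝ := bmp (-1) 5 6 (by norm_num)
/-- The generation window. -/
def zet : ℝ → ℝ := bmp (-13 / 2) (1 / 2) 1 (by norm_num)
/-- Centres of the two read-out windows. -/
def ctr (i : Bool) : ℝ := if i then 3 else 5 / 2
/-- The two read-out windows. -/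
def chi (i : Bool) : ℝ → ℝ := bmp (ctr i) (1 / 4) (1 / 2) (by norm_num)
/-- Cut-off in the squared modulus. -/
def eta : ℝ → ℝ := bmp 1 (1 / 4) (1 / 2) (by norm_num)

/-- The displacement of the base coordinate. -/
def step (β s : ℝ) : ℝ := 1 - psi β * (1 - drv s)

/-- The height dynamics of the squaring map. -/
def qq (s : ℝ) : ℝ := 2 * s / (1 + s ^ 2)

/-- The prediction map on (base coordinate, height). -/
def Phi (p : ℝ × ℝ) : ℝ × ℝ := (p.1 + step p.1 p.2, qq p.2)

/-- The phase of a complex number, cut off away from the unit circle. -/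
def pha (z : ℂ) : ℂ := ((eta (‖z‖ ^ 2) / √(‖z‖ ^ 2) : ℝ) : ℂ) * z

/-! ### Lipschitz bounds -/

lemma lipschitz_mul_of_bounded {X 𝕜 : Type*} [PseudoMetricSpace X] [NormedField 𝕜]
    {a b : X → 𝕜} {Ka Kb : ℝ≥0} (ha : LipschitzWith Ka a) (hb : LipschitzWith Kb b)
    (ha1 : ∀ x, ‖a x‖ ≤ 1) (hb1 : ∀ x, ‖b x‖ ≤ 1) :
    LipschitzWith (Ka + Kb) (fun x => a x * b x) := by
  refine LipschitzWith.of_dist_le_mul fun x y => ?_
  have h1 := ha.dist_le_mul x y
  have h2 := hb.dist_le_mul x y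
  rw [dist_eq_norm] at h1 h2 ⊢
  have : a x * b x - a y * b y = (a x - a y) * b x + a y * (b x - b y) := by ring
  rw [this]
  calc ‖(a x - a y) * b x + a y * (b x - b y)‖
      ≤ ‖a x - a y‖ * ‖b x‖ + ‖a y‖ * ‖b x - b y‖ := by
        refine (norm_add_le _ _).trans ?_
        rw [norm_mul, norm_mul]
    _ ≤ (Ka * dist x y) * 1 + 1 * (Kb * dist x y) := by
        gcongr
        · exact hb1 x
        · exact ha1 y
    _ = _ := by push_cast; ring

lemma lipschitz_pow_of_bounded {X 𝕜 : Type*} [PseudoMetricSpace X] [NormedField 𝕜]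
    {a : X → 𝕜} {K : ℝ≥0} (ha : LipschitzWith K a) (ha1 : ∀ x, ‖a x‖ ≤ 1) (n : ℕ) :
    LipschitzWith (n * K) (fun x => a x ^ n) := by
  induction n with
  | zero => simp
  | succ n ih =>
    have := lipschitz_mul_of_bounded ih ha
      (fun x => by rw [norm_pow]; exact pow_le_one₀ (norm_nonneg _) (ha1 x)) ha1
    simp only [← pow_succ] at this
    convert this using 1
    push_cast; ring

lemma qq_lipschitz : LipschitzWith 2 qq := by
  refine LipschitzWith.of_dist_le_mul fun a b => ?_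
  have ha : (0 : ℝ) < 1 + a ^ 2 := by positivity
  have hb : (0 : ℝ) < 1 + b ^ 2 := by positivity
  have : qq a - qq b = 2 * (a - b) * ((1 - a * b) / ((1 + a ^ 2) * (1 + b ^ 2))) := by
    unfold qq; field_simp; ring
  rw [Real.dist_eq, Real.dist_eq, this, abs_mul, abs_mul]
  have h1 : |(1 - a * b) / ((1 + a ^ 2) * (1 + b ^ 2))| ≤ 1 := by
    rw [abs_div, abs_of_pos (mul_pos ha hb), div_le_one (mul_pos ha hb), abs_le]
    constructor <;> nlinarith [sq_nonneg (a - b), sq_nonneg (a + b), sq_nonneg (a * b)]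
  have h2 : |(2 : ℝ)| = 2 := abs_of_pos two_pos
  rw [h2]
  push_cast
  calc 2 * |a - b| * |(1 - a * b) / ((1 + a ^ 2) * (1 + b ^ 2))| ≤ 2 * |a - b| * 1 := by gcongr
    _ = _ := by ring

lemma qq_contDiff : ContDiff ℝ 1 qq := by
  unfold qq
  refine ContDiff.div (by fun_prop) (by fun_prop) fun s => by positivity

lemma step_contDiff : ContDiff ℝ 1 (fun p : ℝ × ℝ => step p.1 p.2) := by
  unfold step psi drv
  have h1 := (bmp_contDiff (c := 0) (r := 1 / 2) (R := 1) (h := by norm_num)).comp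
    (contDiff_fst (𝕜 := ℝ) (E := ℝ) (F := ℝ))
  have h2 := (bmp_contDiff (c := 0) (r := 1 / 4) (R := 1 / 2) (h := by norm_num)).comp
    (contDiff_snd (𝕜 := ℝ) (E := ℝ) (F := ℝ))
  exact contDiff_const.sub (h1.mul (contDiff_const.sub h2))

lemma Phi_contDiff : ContDiff ℝ 1 Phi :=
  (contDiff_fst.add step_contDiff).prodMk (qq_contDiff.comp contDiff_snd)

lemma Phi_lipschitz : ∃ K : ℝ≥0, LipschitzWith K Phi := by
  obtain ⟨K1, h1⟩ := bmp_lipschitz (c := 0) (r := 1 / 2) (R := 1) (h := by norm_num)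
  obtain ⟨K2, h2⟩ := bmp_lipschitz (c := 0) (r := 1 / 4) (R := 1 / 2) (h := by norm_num)
  have h3 : LipschitzWith (K1 * 1) (fun p : ℝ × ℝ => psi p.1) := h1.comp LipschitzWith.prod_fst
  have h4 : LipschitzWith (0 + K2 * 1) (fun p : ℝ × ℝ => 1 - drv p.2) :=
    (LipschitzWith.const 1).sub (h2.comp LipschitzWith.prod_snd)
  have h5 := lipschitz_mul_of_bounded h3 h4 (fun p => abs_bmp_le_one) (fun p => by
    have h0 : 0 ≤ drv p.2 := bmp_nonneg
    have h1 : drv p.2 ≤ 1 := bmp_le_one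
    rw [Real.norm_eq_abs, abs_le]; constructor <;> linarith)
  have h6 := LipschitzWith.prod_fst.add ((LipschitzWith.const (1 : ℝ)).sub h5)
  exact ⟨_, h6.prodMk (qq_lipschitz.comp LipschitzWith.prod_snd)⟩

lemma pha_eq_zero {z : ℂ} (h : ‖z‖ ^ 2 ≤ 1 / 2 ∨ 3 / 2 ≤ ‖z‖ ^ 2) : pha z = 0 := by
  have : eta (‖z‖ ^ 2) = 0 := by
    rcases h with h | h
    · exact bmp_eq_zero_of_le (by linarith)
    · exact bmp_eq_zero_of_ge (by linarith)
  simp [pha, this]

lemma etaDiv_contDiff : ContDiff ℝ 1 (fun t : ℝ => eta t / √t) := by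
  rw [contDiff_iff_contDiffAt]
  intro t
  by_cases ht : t < 1 / 2
  · have : (fun t : ℝ => eta t / √t) =ᶠ[nhds t] fun _ => 0 := by
      filter_upwards [Iio_mem_nhds ht] with u hu
      have : eta u = 0 := bmp_eq_zero_of_le (by simp only [Set.mem_Iio] at hu; linarith)
      simp [this]
    exact contDiffAt_const.congr_of_eventuallyEq this
  · have ht0 : 0 < t := by linarith [not_lt.1 ht]
    exact bmp_contDiff.contDiffAt.div (Real.contDiffAt_sqrt ht0.ne')
      (Real.sqrt_pos.2 ht0).ne'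

lemma pha_contDiff : ContDiff ℝ 1 pha := by
  unfold pha
  have h1 : ContDiff ℝ 1 (fun z : ℂ => ‖z‖ ^ 2) := contDiff_norm_sq ℝ
  exact (Complex.ofRealCLM.contDiff.comp (etaDiv_contDiff.comp h1)).mul contDiff_id

lemma pha_hasCompactSupport : HasCompactSupport pha := by
  refine HasCompactSupport.intro (isCompact_closedBall (0 : ℂ) 2) fun z hz => ?_
  apply pha_eq_zero
  right
  rw [mem_closedBall_zero_iff, not_le] at hz
  nlinarith

lemma pha_lipschitz : ∃ K : ℝ≥0, LipschitzWith K pha :=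
  ContDiff.lipschitzWith_of_hasCompactSupport pha_hasCompactSupport pha_contDiff (by simp)

lemma pha_eq (z : ℂ) : pha z = ((eta (‖z‖ ^ 2) / ‖z‖ : ℝ) : ℂ) * z := by
  rw [pha, Real.sqrt_sq (norm_nonneg z)]

lemma norm_pha_le (z : ℂ) : ‖pha z‖ ≤ 1 := by
  rw [pha_eq, norm_mul, Complex.norm_real, Real.norm_eq_abs, abs_div, abs_norm]
  by_cases hz : ‖z‖ = 0
  · simp [hz]
  · rw [div_mul_cancel₀ _ hz]; exact abs_bmp_le_one

/-- A Lipschitz constant of the prediction map. -/
def LPhi : ℝ≥0 := Phi_lipschitz.choose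

lemma LPhi_spec : LipschitzWith LPhi Phi := Phi_lipschitz.choose_spec

/-- The ratio of the generating series. -/
def cc : ℝ := 1 / (LPhi + 3)

lemma cc_pos : 0 < cc := by unfold cc; positivity

lemma cc_le : cc ≤ 1 / 3 := by
  unfold cc
  have : (0 : ℝ) ≤ LPhi := LPhi.2
  apply one_div_le_one_div_of_le <;> linarith

lemma cc_mul_lt : cc * LPhi < 1 := by
  unfold cc
  have : (0 : ℝ) ≤ LPhi := LPhi.2
  rw [one_div, inv_mul_lt_iff₀ (by linarith)]
  linarith

/-- The `N`-th term of the generating series. -/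
def genTerm (i : Bool) (N : ℕ) (p : (ℝ × ℝ) × ℂ) : ℂ :=
  (cc ^ N : ℝ) * (((chi i (Phi^[N + 1] p.1).1 : ℝ) : ℂ) * pha p.2 ^ 2 ^ (N + 2))

/-- The generating series. -/
def gen (i : Bool) (p : (ℝ × ℝ) × ℂ) : ℂ := ∑' N, genTerm i N p

lemma contDiff_tsum_of_lipschitz {E F : Type*} [NormedAddCommGroup E] [NormedSpace ℝ E]
    [NormedAddCommGroup F] [NormedSpace ℝ F] [CompleteSpace F] {T : ℕ → E → F}
    (hT : ∀ n, ContDiff ℝ 1 (T n)) {K : ℕ → ℝ≥0} (hK : ∀ n, LipschitzWith (K n) (T n))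
    (hs : Summable fun n => (K n : ℝ)) {x₀ : E} (h0 : Summable fun n => T n x₀) :
    ContDiff ℝ 1 fun x => ∑' n, T n x := by
  have hd : ∀ n, Differentiable ℝ (T n) := fun n => (hT n).differentiable (by simp)
  have hb : ∀ n x, ‖fderiv ℝ (T n) x‖ ≤ K n := fun n x => norm_fderiv_le_of_lipschitz ℝ (hK n)
  rw [contDiff_one_iff_fderiv]
  refine ⟨differentiable_tsum hs (fun n x => (hd n x).hasFDerivAt) hb, ?_⟩
  rw [fderiv_tsum hs hd hb h0]
  exact continuous_tsum (fun n => (contDiff_one_iff_fderiv.1 (hT n)).2) hs hb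

lemma contDiff_iterate_Phi (n : ℕ) : ContDiff ℝ 1 (Phi^[n]) := by
  induction n with
  | zero => exact contDiff_id
  | succ n ih => rw [Function.iterate_succ']; exact Phi_contDiff.comp ih

lemma genTerm_contDiff (i : Bool) (N : ℕ) : ContDiff ℝ 1 (genTerm i N) := by
  unfold genTerm
  refine contDiff_const.mul (ContDiff.mul ?_ ((pha_contDiff.comp contDiff_snd).pow _))
  have hc : ContDiff ℝ 1 (chi i) := bmp_contDiff
  exact Complex.ofRealCLM.contDiff.comp (hc.comp
    (contDiff_fst.comp ((contDiff_iterate_Phi _).comp contDiff_fst)))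

theorem gen_contDiff (i : Bool) : ContDiff ℝ 1 (gen i) := by
  obtain ⟨Kc, hc⟩ := bmp_lipschitz (c := ctr i) (r := 1 / 4) (R := 1 / 2) (h := by norm_num)
  obtain ⟨Ke, he⟩ := pha_lipschitz
  let c' : ℝ≥0 := ⟨cc, cc_pos.le⟩
  have hL : ∀ N, LipschitzWith (c' ^ N * (Kc * LPhi ^ (N + 1) + 2 ^ (N + 2) * Ke))
      (genTerm i N) := by
    intro N
    have h1 : LipschitzWith (1 * (Kc * (1 * (LPhi ^ (N + 1) * 1))))
        (fun p : (ℝ × ℝ) × ℂ => ((chi i (Phi^[N + 1] p.1).1 : ℝ) : ℂ)) :=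
      Complex.isometry_ofReal.lipschitz.comp (hc.comp (LipschitzWith.prod_fst.comp
        ((LPhi_spec.iterate (N + 1)).comp LipschitzWith.prod_fst)))
    have h2 := lipschitz_pow_of_bounded (he.comp (LipschitzWith.prod_snd (α := ℝ × ℝ)))
      (fun p => norm_pha_le _) (2 ^ (N + 2))
    have h3 := lipschitz_mul_of_bounded h1 h2
      (fun p => by rw [Complex.norm_real]; exact abs_bmp_le_one)
      (fun p => by rw [norm_pow]; exact pow_le_one₀ (norm_nonneg _) (norm_pha_le _))
    refine LipschitzWith.of_dist_le_mul fun x y => ?_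
    have h4 := h3.dist_le_mul x y
    rw [dist_eq_norm] at h4 ⊢
    unfold genTerm
    rw [← mul_sub, norm_mul, Complex.norm_real, Real.norm_of_nonneg (pow_pos cc_pos N).le]
    calc _ ≤ cc ^ N * _ := mul_le_mul_of_nonneg_left h4 (pow_pos cc_pos N).le
      _ = _ := by
        have : ((c' : ℝ≥0) : ℝ) = cc := rfl
        push_cast
        rw [this]; ring
  refine contDiff_tsum_of_lipschitz (genTerm_contDiff i) hL ?_ (x₀ := (0, 0)) ?_
  · have hc' : ((c' : ℝ≥0) : ℝ) = cc := rfl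
    have s1 : Summable fun N : ℕ => (Kc * LPhi : ℝ) * (cc * LPhi) ^ N :=
      (summable_geometric_of_lt_one (mul_nonneg cc_pos.le LPhi.2) cc_mul_lt).mul_left _
    have s2 : Summable fun N : ℕ => (4 * Ke : ℝ) * (cc * 2) ^ N :=
      (summable_geometric_of_lt_one (by linarith [cc_pos]) (by linarith [cc_le])).mul_left _
    refine (s1.add s2).congr fun N => ?_
    push_cast
    rw [hc']; ring
  · have : ∀ N, genTerm i N (0, 0) = 0 := fun N => by
      have : pha 0 = 0 := pha_eq_zero (by norm_num)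
      simp [genTerm, this]
    simp only [this]; exact summable_zero

end Crest.Agent.R123
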