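import Crest.Agent.R123.Defs

/-!
# Row 123 (S0163): singular simplices and the chain-level data giving the eigenvalue `2`
-/

noncomputable section

namespace Crest.Agent.R123

/-- The topological `n`-simplex. -/
abbrev Sx (n : ℕ) : Type := stdSimplex ℝ (Fin (n + 1))

/-- The `i`-th face inclusion. -/
def face (n : ℕ) (i : Fin (n + 2)) : C(Sx n, Sx (n + 1)) :=
  ⟨stdSimplex.map i.succAbove, stdSimplex.continuous_map _⟩

/-- Chain-level data showing that `σp - σm` is a `2`-cycle, not a boundary (detected by the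
cocycle `w`), and that `g (σp - σm) - 2 (σp - σm)` is the boundary of `τp - τm`. -/
structure ChainData {X : Type} [TopologicalSpace X] (g : C(X, X)) (σp σm : C(Sx 2, X))
    (τp τm : C(Sx 3, X)) (w : C(Sx 2, X) → ℝ) : Prop where
  cocycle : ∀ τ : C(Sx 3, X), ∑ i : Fin 4, (-1 : ℝ) ^ (i : ℕ) * w (τ.comp (face 2 i)) = 0
  ne : w σp ≠ w σm
  s0 : σp.comp (face 1 0) = σm.comp (face 1 0)
  sp : σp.comp (face 1 1) = σp.comp (face 1 2)
  sm : σm.comp (face 1 1) = σm.comp (face 1 2)
  t0 : τp.comp (face 2 0) = τm.comp (face 2 0)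
  tp1 : τp.comp (face 2 1) = σp
  tp2 : τp.comp (face 2 2) = g.comp σp
  tp3 : τp.comp (face 2 3) = σp
  tm1 : τm.comp (face 2 1) = σm
  tm2 : τm.comp (face 2 2) = g.comp σm
  tm3 : τm.comp (face 2 3) = σm

/-- The endomorphism of `H₂(X; ℝ)` induced by a continuous self-map. -/
abbrev H2map {X Y : Type} [TopologicalSpace X] [TopologicalSpace Y] (g : C(X, Y)) :=
  (((AlgebraicTopology.singularHomologyFunctor (ModuleCat.{0} ℝ) 2).obj
    (ModuleCat.of ℝ ℝ)).map (TopCat.ofHom g)).hom

end Crest.Agent.R123
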