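import Crest.Agent.R123.Map

/-!
# Row 123 (S0163): the map `F` is `C¹`
-/

noncomputable section

open scoped Real ComplexConjugate Manifold ContDiff Topology

namespace Crest.Agent.R123

local instance : Fact (Module.finrank ℝ ℂ = 1 + 1) := finrank_real_complex_fact'

section general

variable {E : Type*} [NormedAddCommGroup E] [NormedSpace ℝ E] {H : Type*} [TopologicalSpace H]
  {I : ModelWithCorners ℝ E H} {N : Type*} [TopologicalSpace N] [ChartedSpace H N]

lemma contDiff_mk3 : ContDiff ℝ 1 (fun p : ℂ × ℝ => mk3 p.1 p.2) :=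
  (WithLp.prodContinuousLinearEquiv 2 ℝ ℂ ℝ).symm.contDiff

lemma contMDiff_S2_mk [IsManifold I 1 N] {f : N → ℂ} {g : N → ℝ}
    (hf : ContMDiff I 𝓘(ℝ, ℂ) 1 f) (hg : ContMDiff I 𝓘(ℝ, ℝ) 1 g)
    (h : ∀ x, ‖f x‖ ^ 2 + g x ^ 2 = 1) :
    ContMDiff I (𝓡 2) 1 (fun x => S2.mk (f x) (g x) (h x)) :=
  ContMDiff.codRestrict_sphere (n := 2) (f := fun x => mk3 (f x) (g x))
    (contDiff_mk3.comp_contMDiff (hf.prodMk_space hg)) (fun x => (mem_S2_iff _).2 (h x))

lemma contMDiff_z : ContMDiff (𝓡 2) 𝓘(ℝ, ℂ) 1 S2.z :=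
  (contDiff_fst.comp (WithLp.prodContinuousLinearEquiv 2 ℝ ℂ ℝ).contDiff).comp_contMDiff
    (contMDiff_coe_sphere (n := 2))

lemma contMDiff_s : ContMDiff (𝓡 2) 𝓘(ℝ, ℝ) 1 S2.s :=
  (contDiff_snd.comp (WithLp.prodContinuousLinearEquiv 2 ℝ ℂ ℝ).contDiff).comp_contMDiff
    (contMDiff_coe_sphere (n := 2))

lemma contMDiff_coe_circle : ContMDiff (𝓡 1) 𝓘(ℝ, ℂ) 1 (fun b : Circle => (b : ℂ)) :=
  contMDiff_coe_sphere (n := 1)

lemma contDiffAt_arg {z : ℂ} (hz : z ∈ Complex.slitPlane) : ContDiffAt ℝ 1 Complex.arg z := by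
  have h1 : ContDiffAt ℝ 1 Complex.log z := (Complex.contDiffAt_log hz).restrict_scalars ℝ
  have h2 := Complex.imCLM.contDiff.contDiffAt.comp z h1
  convert h2 using 1
  ext w
  simp [Complex.log_im]

lemma abs_ang_ge {b : Circle} (hb : (b : ℂ).re < Real.cos (15 / 16 * π)) :
    15 / 2 ≤ |ang b| := by
  have hπ := Real.pi_pos
  have h1 : Real.cos |Complex.arg b| = (b : ℂ).re := by
    rw [Real.cos_abs, Complex.cos_arg b.coe_ne_zero, Circle.norm_coe, div_one]
  have h2 : 15 / 16 * π ≤ |Complex.arg b| := by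
    by_contra hlt
    have := Real.cos_le_cos_of_nonneg_of_le_pi (abs_nonneg _) (by linarith) (not_le.1 hlt).le
    linarith
  unfold ang
  rw [abs_mul, abs_of_pos (by positivity : 0 < 8 / π), div_mul_eq_mul_div, le_div_iff₀ hπ]
  linarith

/-- A `C¹` function of the base coordinate which vanishes near the cut is `C¹` on the circle. -/
lemma contMDiff_ang {Y Z : Type*} [NormedAddCommGroup Y] [NormedSpace ℝ Y]
    [NormedAddCommGroup Z] [NormedSpace ℝ Z] {G : ℝ × Y → Z} (hG : ContDiff ℝ 1 G)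
    (h0 : ∀ β y, 15 / 2 ≤ |β| → G (β, y) = 0) {b : N → Circle} {y : N → Y}
    (hb : ContMDiff I (𝓡 1) 1 b) (hy : ContMDiff I 𝓘(ℝ, Y) 1 y) :
    ContMDiff I 𝓘(ℝ, Z) 1 (fun m => G (ang (b m), y m)) := by
  intro m
  have hc : ContMDiff I 𝓘(ℝ, ℂ) 1 (fun m => (b m : ℂ)) := contMDiff_coe_circle.comp hb
  by_cases hs : (b m : ℂ) ∈ Complex.slitPlane
  · have h1 : ContDiffAt ℝ 1 (fun z : ℂ => 8 / π * Complex.arg z) (b m : ℂ) :=
      contDiffAt_const.mul (contDiffAt_arg hs)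
    have h2 : ContMDiffAt I 𝓘(ℝ, ℝ) 1 (fun m => ang (b m)) m :=
      ContDiffAt.comp_contMDiffAt (f := fun m => (b m : ℂ)) h1 (hc m)
    exact hG.comp_contMDiffAt (h2.prodMk_space (hy m))
  · have hπ := Real.pi_pos
    have hre : (b m : ℂ).re = -1 := by
      rw [Complex.mem_slitPlane_iff, not_or, not_lt, not_not] at hs
      have hn := Complex.sq_norm (b m : ℂ)
      rw [Circle.norm_coe, Complex.normSq_apply, hs.2] at hn
      nlinarith [hs.1]
    have hlt : (b m : ℂ).re < Real.cos (15 / 16 * π) := by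
      rw [hre, ← Real.cos_pi]
      exact Real.cos_lt_cos_of_nonneg_of_le_pi (by positivity) le_rfl (by linarith)
    have hev : ∀ᶠ m' in 𝓝 m, (b m' : ℂ).re < Real.cos (15 / 16 * π) :=
      (Complex.continuous_re.comp hc.continuous).continuousAt.eventually_lt continuousAt_const hlt
    refine (contMDiffAt_const (c := (0 : Z))).congr_of_eventuallyEq ?_
    filter_upwards [hev] with m' hm'
    exact h0 _ _ (abs_ang_ge hm')

end general

/-- The model of `MM`. -/
abbrev II := (𝓡 2).prod ((𝓡 1).prod ((𝓡 2).prod (𝓡 2)))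

lemma contMDiff_x : ContMDiff II (𝓡 2) 1 MM.x := contMDiff_fst

lemma contMDiff_b : ContMDiff II (𝓡 1) 1 (fun m : MM => m.2.1) := contMDiff_fst.comp contMDiff_snd

lemma contMDiff_reg (i : Bool) : ContMDiff II (𝓡 2) 1 (fun m : MM => m.reg i) := by
  cases i
  · exact contMDiff_fst.comp (contMDiff_snd.comp contMDiff_snd)
  · exact contMDiff_snd.comp (contMDiff_snd.comp contMDiff_snd)

lemma contMDiff_xz : ContMDiff II 𝓘(ℝ, ℂ) 1 (fun m : MM => m.x.z) := contMDiff_z.comp contMDiff_x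
lemma contMDiff_xs : ContMDiff II 𝓘(ℝ, ℝ) 1 (fun m : MM => m.x.s) := contMDiff_s.comp contMDiff_x
lemma contMDiff_regz (i : Bool) : ContMDiff II 𝓘(ℝ, ℂ) 1 (fun m : MM => (m.reg i).z) :=
  contMDiff_z.comp (contMDiff_reg i)

lemma contDiff_ofReal' {X : Type*} [NormedAddCommGroup X] [NormedSpace ℝ X] {f : X → ℝ}
    (hf : ContDiff ℝ 1 f) : ContDiff ℝ 1 (fun x => (f x : ℂ)) :=
  Complex.ofRealCLM.contDiff.comp hf

lemma chi_eq_zero_of_abs (i : Bool) {β : ℝ} (h : 15 / 2 ≤ |β|) : chi i β = 0 := by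
  rcases le_abs.1 h with h | h
  · exact bmp_eq_zero_of_ge (by cases i <;> simp [ctr] <;> linarith)
  · exact bmp_eq_zero_of_le (by cases i <;> simp [ctr] <;> linarith)

lemma contMDiff_W : ContMDiff II 𝓘(ℝ, ℂ) 1 MM.W := by
  have hc : ∀ i, ContDiff ℝ 1 (chi i) := fun i => bmp_contDiff
  refine contMDiff_ang (G := fun p : ℝ × (ℂ × ℂ) => outW p.1 p.2.1 p.2.2) ?_ ?_ contMDiff_b
    ((contMDiff_regz false).prodMk_space (contMDiff_regz true))
  · unfold outW
    exact ((contDiff_ofReal' (contDiff_const.mul ((hc false).comp contDiff_fst))).mul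
      contDiff_snd.fst).add
      ((contDiff_ofReal' (contDiff_const.mul ((hc true).comp contDiff_fst))).mul contDiff_snd.snd)
  · intro β y h
    simp [outW, chi_eq_zero_of_abs _ h]

lemma contMDiff_V (i : Bool) : ContMDiff II 𝓘(ℝ, ℂ) 1 (fun m : MM => m.V i) := by
  have hk : ContDiff ℝ 1 kil := bmp_contDiff
  have hz : ContDiff ℝ 1 zet := bmp_contDiff
  refine contMDiff_ang (G := fun p : ℝ × (ℝ × ℂ × ℂ) => inV i p.1 p.2.1 p.2.2.1 p.2.2.2) ?_ ?_
    contMDiff_b (contMDiff_xs.prodMk_space (contMDiff_xz.prodMk_space (contMDiff_regz i)))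
  · unfold inV
    exact ((contDiff_ofReal' (contDiff_const.mul (hk.comp contDiff_fst))).mul
      contDiff_snd.snd.snd).add
      ((contDiff_ofReal' (hz.comp contDiff_fst)).mul ((gen_contDiff i).comp
        ((contDiff_fst.prodMk contDiff_snd.fst).prodMk contDiff_snd.snd.fst)))
  · intro β y h
    have h1 : kil β = 0 := by
      rcases le_abs.1 h with h | h
      · exact bmp_eq_zero_of_ge (by linarith)
      · exact bmp_eq_zero_of_le (by linarith)
    have h2 : zet β = 0 := by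
      rcases le_abs.1 h with h | h
      · exact bmp_eq_zero_of_ge (by linarith)
      · exact bmp_eq_zero_of_le (by linarith)
    simp [inV, h1, h2]

lemma contMDiff_st : ContMDiff II 𝓘(ℝ, ℝ) 1 MM.st := by
  have hp : ContDiff ℝ 1 psi := bmp_contDiff
  have hd : ContDiff ℝ 1 drv := bmp_contDiff
  have h1 := contMDiff_ang (G := fun p : ℝ × ℝ => psi p.1 * (1 - drv p.2))
    ((hp.comp contDiff_fst).mul (contDiff_const.sub (hd.comp contDiff_snd))) (fun β y h => by
      have : psi β = 0 := by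
        rcases le_abs.1 h with h | h
        · exact bmp_eq_zero_of_ge (by linarith)
        · exact bmp_eq_zero_of_le (by linarith)
      simp [this]) contMDiff_b contMDiff_xs
  exact (contDiff_const.sub contDiff_id : ContDiff ℝ 1 (fun t : ℝ => 1 - t)).comp_contMDiff h1

lemma contDiff_mobA : ContDiff ℝ 1 (fun p : ℂ × ℝ × ℂ => mobA p.1 p.2.1 p.2.2) := by
  unfold mobA
  have h1 : ContDiff ℝ 1 (fun p : ℂ × ℝ × ℂ => (p.1 ^ 2 * conj p.2.2).re) :=
    Complex.reCLM.contDiff.comp ((contDiff_fst.pow 2).mul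
      (Complex.conjCLE.contDiff.comp contDiff_snd.snd))
  have h2 : ContDiff ℝ 1 (fun p : ℂ × ℝ × ℂ => ‖p.2.2‖ ^ 2) :=
    (contDiff_norm_sq ℝ).comp contDiff_snd.snd
  exact (contDiff_const.mul h1).add (h2.mul ((contDiff_const.sub contDiff_snd.fst).pow 2))

lemma contDiff_mobN : ContDiff ℝ 1 (fun p : ℂ × ℝ × ℂ => mobN p.1 p.2.1 p.2.2) := by
  unfold mobN
  exact (contDiff_const.add (contDiff_const.mul (contDiff_snd.fst.pow 2))).add contDiff_mobA

lemma contDiff_mobP : ContDiff ℝ 1 (fun p : ℂ × ℝ × ℂ => mobP p.1 p.2.1 p.2.2) := by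
  unfold mobP
  exact (contDiff_fst.pow 2).add
    ((contDiff_ofReal' ((contDiff_const.sub contDiff_snd.fst).pow 2)).mul contDiff_snd.snd)

lemma contMDiff_mob : ContMDiff II (𝓡 2) 1 (fun m : MM => mob m.x m.W) := by
  have hc : ContMDiff II 𝓘(ℝ, ℂ × ℝ × ℂ) 1 (fun m : MM => (m.x.z, m.x.s, m.W)) :=
    contMDiff_xz.prodMk_space (contMDiff_xs.prodMk_space contMDiff_W)
  refine contMDiff_S2_mk (fun m => ?_) (fun m => ?_) _
  · have hN := (mobN_pos m.x.norm_sq_add m.W).ne'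
    have h1 : ContDiffAt ℝ 1 (fun p : ℂ × ℝ × ℂ =>
        ((2 / mobN p.1 p.2.1 p.2.2 : ℝ) : ℂ) * mobP p.1 p.2.1 p.2.2) (m.x.z, m.x.s, m.W) :=
      (Complex.ofRealCLM.contDiff.contDiffAt.comp _
        (contDiffAt_const.div contDiff_mobN.contDiffAt hN)).mul contDiff_mobP.contDiffAt
    exact ContDiffAt.comp_contMDiffAt (f := fun m : MM => (m.x.z, m.x.s, m.W)) h1 (hc m)
  · have hN := (mobN_pos m.x.norm_sq_add m.W).ne'
    have h1 : ContDiffAt ℝ 1 (fun p : ℂ × ℝ × ℂ =>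
        (4 * p.2.1 + mobA p.1 p.2.1 p.2.2) / mobN p.1 p.2.1 p.2.2) (m.x.z, m.x.s, m.W) :=
      ((contDiff_const.mul contDiff_snd.fst).add contDiff_mobA).contDiffAt.div
        contDiff_mobN.contDiffAt hN
    exact ContDiffAt.comp_contMDiffAt (f := fun m : MM => (m.x.z, m.x.s, m.W)) h1 (hc m)

lemma contDiff_invSqrt : ContDiff ℝ 1 (fun V : ℂ => (√(1 + ‖V‖ ^ 2))⁻¹) := by
  have h1 : ContDiff ℝ 1 (fun V : ℂ => 1 + ‖V‖ ^ 2) := contDiff_const.add (contDiff_norm_sq ℝ)
  refine ContDiff.inv (h1.sqrt fun V => by positivity) fun V => ?_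
  exact (Real.sqrt_pos.2 (by positivity)).ne'

lemma contMDiff_nrm (i : Bool) : ContMDiff II (𝓡 2) 1 (fun m : MM => nrm (m.V i)) :=
  contMDiff_S2_mk
    (((contDiff_ofReal' contDiff_invSqrt).mul contDiff_id).comp_contMDiff (contMDiff_V i))
    (contDiff_invSqrt.comp_contMDiff (contMDiff_V i)) _

theorem contMDiff_F : ContMDiff II II 1 F := by
  refine contMDiff_mob.prodMk (ContMDiff.prodMk ?_ ((contMDiff_nrm false).prodMk
    (contMDiff_nrm true)))
  have h1 : ContMDiff II (𝓡 1) 1 (fun m : MM => Circle.exp (π / 8 * m.st)) :=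
    contMDiff_circleExp.comp
      ((contDiff_const.mul contDiff_id : ContDiff ℝ 1 (fun t : ℝ => π / 8 * t)).comp_contMDiff
        contMDiff_st)
  exact contMDiff_b.mul h1

theorem continuous_F : Continuous F := contMDiff_F.continuous

end Crest.Agent.R123
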