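import Mathlib

/-!
# Row 123 (S0163): changing the model of a boundaryless manifold to `EuclideanSpace ℝ (Fin n)`
-/

noncomputable section

open scoped Manifold ContDiff

namespace Crest.Agent.R123

section self

variable {E : Type} [NormedAddCommGroup E] [NormedSpace ℝ E] {H : Type} [TopologicalSpace H]
  (I : ModelWithCorners ℝ E H) [I.Boundaryless] (M : Type) [TopologicalSpace M]
  [ChartedSpace H M]

/-- The charts composed with the model. -/
@[reducible] def selfCharted : ChartedSpace E M where
  atlas := (fun c => c.transHomeomorph I.toHomeomorph) '' atlas H M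
  chartAt x := (chartAt H x).transHomeomorph I.toHomeomorph
  mem_chart_source x := mem_chart_source H x
  chart_mem_atlas x := ⟨_, chart_mem_atlas H x, rfl⟩

lemma selfCharted_isManifold [IsManifold I ∞ M] :
    letI := selfCharted I M
    IsManifold 𝓘(ℝ, E) ∞ M := by
  letI := selfCharted I M
  apply isManifold_of_contDiffOn
  rintro _ _ ⟨e, he, rfl⟩ ⟨e', he', rfl⟩
  have h := ((contDiffGroupoid ∞ I).compatible he he').1
  refine ContDiffOn.congr (ContDiffOn.mono h ?_) ?_
  · intro x hx
    refine ⟨hx.1, ?_⟩
    rw [I.range_eq_univ]; trivial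
  · intro x hx
    rfl

lemma selfCharted_contMDiff {f : M → M} (hf : ContMDiff I I 1 f) :
    letI := selfCharted I M
    ContMDiff 𝓘(ℝ, E) 𝓘(ℝ, E) 1 f := by
  letI := selfCharted I M
  intro x
  have h := contMDiffAt_iff.1 (hf x)
  rw [I.range_eq_univ] at h
  refine contMDiffAt_iff.2 ⟨h.1, ?_⟩
  rw [modelWithCornersSelf_coe, Set.range_id]
  exact h.2

end self

theorem exists_euclidean_model {E : Type} [NormedAddCommGroup E] [NormedSpace ℝ E]
    [FiniteDimensional ℝ E] {H : Type} [TopologicalSpace H] (I : ModelWithCorners ℝ E H)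
    [I.Boundaryless] (M : Type) [TopologicalSpace M] [ChartedSpace H M] [IsManifold I ∞ M]
    (f : M → M) (hf : ContMDiff I I 1 f) :
    ∃ (n : ℕ) (_ : ChartedSpace (EuclideanSpace ℝ (Fin n)) M)
      (_ : IsManifold (modelWithCornersSelf ℝ (EuclideanSpace ℝ (Fin n))) ∞ M),
      ContMDiff (modelWithCornersSelf ℝ (EuclideanSpace ℝ (Fin n)))
        (modelWithCornersSelf ℝ (EuclideanSpace ℝ (Fin n))) 1 f := by
  let J := I.transContinuousLinearEquiv (toEuclidean (E := E))
  haveI : J.Boundaryless := ⟨by
    rw [I.transContinuousLinearEquiv_range, I.range_eq_univ, Set.image_univ]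
    exact (toEuclidean (E := E)).surjective.range_eq⟩
  refine ⟨_, selfCharted J M, selfCharted_isManifold J M, selfCharted_contMDiff J M ?_⟩
  simpa [J] using hf

end Crest.Agent.R123
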