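import Crest.Agent.R123.Simplex

/-!
# Row 123 (S0163): faces of simplices and winding of non-vanishing functions on an edge
-/

noncomputable section

namespace Crest.Agent.R123

instance (n : ℕ) : ContractibleSpace (Sx n) :=
  (convex_stdSimplex ℝ (Fin (n + 1))).contractibleSpace ⟨_, (stdSimplex.vertex 0).2⟩

instance (n : ℕ) : LocallyPathConnectedSpace (Sx n) :=
  (convex_stdSimplex ℝ (Fin (n + 1))).locallyPathConnectedSpace

lemma face_vertex (n : ℕ) (i : Fin (n + 2)) (k : Fin (n + 1)) :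
    face n i (stdSimplex.vertex k) = stdSimplex.vertex (i.succAbove k) :=
  stdSimplex.map_vertex _ _

lemma face_apply_succAbove (n : ℕ) (i : Fin (n + 2)) (t : Sx n) (k : Fin (n + 1)) :
    face n i t (i.succAbove k) = t k := by
  change stdSimplex.map i.succAbove t (i.succAbove k) = t k
  rw [stdSimplex.map_coe, FunOnFinite.linearMap_apply_apply]
  rw [Finset.sum_eq_single k]
  · intro b hb hbk
    simp only [Finset.mem_filter, Finset.mem_univ, true_and] at hb
    exact absurd (Fin.succAbove_right_injective hb) hbk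
  · simp

lemma face_apply_self (n : ℕ) (i : Fin (n + 2)) (t : Sx n) : face n i t i = 0 := by
  change stdSimplex.map i.succAbove t i = 0
  rw [stdSimplex.map_coe, FunOnFinite.linearMap_apply_apply]
  apply Finset.sum_eq_zero
  intro b hb
  simp only [Finset.mem_filter, Finset.mem_univ, true_and] at hb
  exact absurd hb (Fin.succAbove_ne i b)

lemma face_comp_face {n : ℕ} {i i' : Fin (n + 3)} {j j' : Fin (n + 2)}
    (h : i.succAbove ∘ j.succAbove = i'.succAbove ∘ j'.succAbove) :
    (face (n + 1) i).comp (face n j) = (face (n + 1) i').comp (face n j') := by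
  ext1 t
  change stdSimplex.map _ (stdSimplex.map _ t) = stdSimplex.map _ (stdSimplex.map _ t)
  rw [stdSimplex.map_comp_apply, stdSimplex.map_comp_apply]
  exact congrArg (fun f => stdSimplex.map f t) h

lemma exists_log {n : ℕ} (φ : C(Sx n, ℂ)) (hφ : ∀ t, φ t ≠ 0) :
    ∃ L : C(Sx n, ℂ), ∀ t, Complex.exp (L t) = φ t := by
  obtain ⟨L, ⟨-, hL⟩, -⟩ := Complex.isCoveringMapOn_exp.existsUnique_continuousMap_lifts φ
    (a₀ := stdSimplex.vertex 0) (Complex.exp_log (hφ _)) hφ
  exact ⟨L, fun t => congrFun hL t⟩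

open Classical in
/-- The total change of the argument of `φ` along an edge. -/
def wind (φ : C(Sx 1, ℂ)) : ℝ :=
  if h : ∃ L : C(Sx 1, ℂ), ∀ t, Complex.exp (L t) = φ t then
    (h.choose (stdSimplex.vertex 1) - h.choose (stdSimplex.vertex 0)).im else 0

lemma wind_eq {φ L : C(Sx 1, ℂ)} (hL : ∀ t, Complex.exp (L t) = φ t) :
    wind φ = (L (stdSimplex.vertex 1) - L (stdSimplex.vertex 0)).im := by
  have h : ∃ L : C(Sx 1, ℂ), ∀ t, Complex.exp (L t) = φ t := ⟨L, hL⟩
  rw [wind, dif_pos h]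
  have h1 := h.choose_spec
  generalize h.choose = L' at h1
  have h2 : ∀ t, Complex.exp (L' t - L t) = 1 := fun t => by
    rw [Complex.exp_sub, h1, ← hL, div_self (Complex.exp_ne_zero _)]
  have h3 := Complex.isCoveringMap_exp.const_of_comp (g := fun t => L' t - L t) (by fun_prop)
    (fun a a' => Subtype.ext (by simp only [h2])) (stdSimplex.vertex 1) (stdSimplex.vertex 0)
  congr 1
  linear_combination h3

lemma wind_mul {φ ψ : C(Sx 1, ℂ)} (hφ : ∀ t, φ t ≠ 0) (hψ : ∀ t, ψ t ≠ 0) :
    wind (φ * ψ) = wind φ + wind ψ := by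
  obtain ⟨L, hL⟩ := exists_log φ hφ
  obtain ⟨L', hL'⟩ := exists_log ψ hψ
  rw [wind_eq hL, wind_eq hL', wind_eq (L := L + L') fun t => by
    rw [ContinuousMap.add_apply, Complex.exp_add, hL, hL']; rfl]
  simp only [ContinuousMap.add_apply, Complex.sub_im, Complex.add_im]
  ring

lemma wind_pos {φ : C(Sx 1, ℂ)} {r : Sx 1 → ℝ} (hr : Continuous r) (h0 : ∀ t, 0 < r t)
    (h : ∀ t, φ t = r t) : wind φ = 0 := by
  rw [wind_eq (L := ⟨fun t => (Real.log (r t) : ℂ),
    Complex.continuous_ofReal.comp (hr.log fun t => (h0 t).ne')⟩) fun t => by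
      rw [h, ContinuousMap.coe_mk, ← Complex.ofReal_exp, Real.exp_log (h0 t)]]
  simp

lemma wind_boundary {φ : C(Sx 2, ℂ)} (hφ : ∀ t, φ t ≠ 0) :
    wind (φ.comp (face 1 0)) - wind (φ.comp (face 1 1)) + wind (φ.comp (face 1 2)) = 0 := by
  obtain ⟨L, hL⟩ := exists_log φ hφ
  have key : ∀ i : Fin 3, wind (φ.comp (face 1 i)) =
      (L (stdSimplex.vertex (i.succAbove 1)) - L (stdSimplex.vertex (i.succAbove 0))).im := by
    intro i
    rw [wind_eq (L := L.comp (face 1 i)) fun t => hL _, ContinuousMap.comp_apply,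
      ContinuousMap.comp_apply, face_vertex, face_vertex]
  rw [key, key, key]
  have e1 : (0 : Fin 3).succAbove 1 = 2 := rfl
  have e2 : (0 : Fin 3).succAbove 0 = 1 := rfl
  have e3 : (1 : Fin 3).succAbove 1 = 2 := rfl
  have e4 : (1 : Fin 3).succAbove 0 = 0 := rfl
  have e5 : (2 : Fin 3).succAbove 1 = 1 := rfl
  have e6 : (2 : Fin 3).succAbove 0 = 0 := rfl
  rw [e1, e2, e3, e4, e5, e6]
  simp only [Complex.sub_im]
  ring

end Crest.Agent.R123
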